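import Mathlib

-- ▼ part X212/Pic56/Log
section

/-!
# X212 / Pic56 / Log (helper56): continuous logarithms and degrees of circle maps

* `HasLog φ S` : `φ = exp ψ` on `S` with `ψ` continuous on `S`;
* `HasLog.homotopy`, `HasLog.of_contract` : logarithms along a homotopy;
* `HasLog.union` : two closed sets with preconnected intersection;
* `exists_deg` : on `X × Circle`, `φ(x,u) = u^j exp ψ`;  `deg_unique` : `u^j = exp ψ ⇒ j = 0`;
* `exists_deg_torus`, `deg_unique_torus`;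
* `hasLog_sphere` : spheres of dimension at least two.
-/

set_option autoImplicit false

open Set Function Complex
open scoped Real Topology

namespace Crest.Agent.X212.Pic56

noncomputable section

variable {X : Type*} [TopologicalSpace X]

/-- `φ` has a continuous logarithm on `S` -/
def HasLog (φ : X → ℂ) (S : Set X) : Prop :=
  ∃ ψ : X → ℂ, ContinuousOn ψ S ∧ ∀ x ∈ S, φ x = exp (ψ x)

namespace HasLog

theorem mono {φ : X → ℂ} {S T : Set X} (h : HasLog φ S) (hT : T ⊆ S) : HasLog φ T :=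
  let ⟨ψ, h1, h2⟩ := h; ⟨ψ, h1.mono hT, fun x hx => h2 x (hT hx)⟩

theorem congr {φ φ' : X → ℂ} {S : Set X} (h : HasLog φ S) (e : ∀ x ∈ S, φ' x = φ x) :
    HasLog φ' S :=
  let ⟨ψ, h1, h2⟩ := h; ⟨ψ, h1, fun x hx => (e x hx).trans (h2 x hx)⟩

theorem mul {φ φ' : X → ℂ} {S : Set X} (h : HasLog φ S) (h' : HasLog φ' S) :
    HasLog (fun x => φ x * φ' x) S := by
  obtain ⟨ψ, h1, h2⟩ := h
  obtain ⟨ψ', h1', h2'⟩ := h'
  exact ⟨fun x => ψ x + ψ' x, h1.add h1', fun x hx => by simp only [h2 x hx, h2' x hx, exp_add]⟩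

theorem inv {φ : X → ℂ} {S : Set X} (h : HasLog φ S) : HasLog (fun x => (φ x)⁻¹) S := by
  obtain ⟨ψ, h1, h2⟩ := h
  exact ⟨fun x => - ψ x, h1.neg, fun x hx => by simp only [h2 x hx, exp_neg]⟩

theorem comp {Y : Type*} [TopologicalSpace Y] {φ : X → ℂ} {S : Set X} (h : HasLog φ S)
    {g : Y → X} {T : Set Y} (hg : ContinuousOn g T) (hm : MapsTo g T S) :
    HasLog (fun y => φ (g y)) T :=
  let ⟨ψ, h1, h2⟩ := h; ⟨fun y => ψ (g y), h1.comp hg hm, fun _ hy => h2 _ (hm hy)⟩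

theorem ne_zero {φ : X → ℂ} {S : Set X} (h : HasLog φ S) {x : X} (hx : x ∈ S) : φ x ≠ 0 := by
  obtain ⟨ψ, -, h2⟩ := h
  rw [h2 x hx]; exact exp_ne_zero _

theorem const {c : ℂ} (hc : c ≠ 0) (S : Set X) : HasLog (fun _ : X => c) S :=
  ⟨fun _ => log c, continuousOn_const, fun _ _ => (exp_log hc).symm⟩

theorem of_subtype {φ : X → ℂ} {S : Set X} (h : HasLog (fun x : S => φ x) univ) : HasLog φ S := by
  classical
  obtain ⟨ψ, h1, h2⟩ := h
  refine ⟨fun x => if hx : x ∈ S then ψ ⟨x, hx⟩ else 0, ?_, fun x hx => ?_⟩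
  · rw [continuousOn_iff_continuous_domRestrict]
    convert continuousOn_univ.1 h1 using 1
    funext x
    simp [x.2]
  · simp only [hx, dite_true]
    exact h2 ⟨x, hx⟩ (mem_univ _)

/-- a positive function has a logarithm -/
theorem of_pos {r : X → ℝ} {S : Set X} (hr : ContinuousOn r S) (h : ∀ x ∈ S, 0 < r x) :
    HasLog (fun x => (r x : ℂ)) S :=
  ⟨fun x => (Real.log (r x) : ℂ),
    continuous_ofReal.comp_continuousOn (hr.log fun x hx => (h x hx).ne'),
    fun x hx => by rw [← ofReal_exp, Real.exp_log (h x hx)]⟩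

/-- logarithms along a homotopy -/
theorem homotopy {H : unitInterval × X → ℂ} (hc : Continuous H) (h0 : ∀ z, H z ≠ 0)
    (hl : HasLog (fun x => H (0, x)) univ) : HasLog H univ := by
  obtain ⟨ψ, h1, h2⟩ := hl
  let H' : C(unitInterval × X, {z : ℂ // z ≠ 0}) := ⟨fun z => ⟨H z, h0 z⟩, hc.subtype_mk _⟩
  let f : C(X, ℂ) := ⟨ψ, continuousOn_univ.1 h1⟩
  have e0 : ∀ a, H' (0, a) = (fun z : ℂ => (⟨_, z.exp_ne_zero⟩ : {z : ℂ // z ≠ 0})) (f a) :=
    fun a => Subtype.ext (h2 a (mem_univ _))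
  refine ⟨isCoveringMap_exp.liftHomotopy H' f e0, (map_continuous _).continuousOn, fun z _ => ?_⟩
  have := congrFun (isCoveringMap_exp.liftHomotopy_lifts H' f e0) z
  exact (congrArg Subtype.val this).symm

/-- if `S` deforms inside `S'` into `S₀`, logarithms pass from `S₀` to `S` -/
theorem of_deform {φ : X → ℂ} {S S' S₀ : Set X} (hφ : ContinuousOn φ S') (h0 : ∀ x ∈ S', φ x ≠ 0)
    {h : ℝ × X → X} (hc : ContinuousOn h (Icc 0 1 ×ˢ S))
    (hm : ∀ t ∈ Icc (0:ℝ) 1, ∀ x ∈ S, h (t, x) ∈ S') (e0 : ∀ x ∈ S, h (0, x) ∈ S₀)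
    (e1 : ∀ x ∈ S, h (1, x) = x) (hl : HasLog φ S₀) : HasLog φ S := by
  apply of_subtype
  have c1 : Continuous fun z : unitInterval × S => h ((z.1 : ℝ), (z.2 : X)) :=
    hc.comp_continuous (by fun_prop) fun z => ⟨z.1.2, z.2.2⟩
  have c2 : Continuous fun z : unitInterval × S => φ (h ((z.1 : ℝ), (z.2 : X))) :=
    hφ.comp_continuous c1 fun z => hm _ z.1.2 _ z.2.2
  have l0 : HasLog (fun x : S => φ (h (((0 : unitInterval) : ℝ), (x : X)))) univ :=
    hl.comp (c1.comp (Continuous.prodMk_right (0 : unitInterval))).continuousOn fun x _ => e0 _ x.2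
  have l1 := homotopy c2 (fun z => h0 _ (hm _ z.1.2 _ z.2.2)) l0
  have l2 := l1.comp (g := fun x : S => ((1 : unitInterval), x)) (T := univ) (by fun_prop) (mapsTo_univ _ _)
  exact l2.congr fun x _ => by simp [e1 _ x.2]

end HasLog

/-- a continuous function with values in `2πi ℤ` on a preconnected set is constant -/
theorem const_of_exp_eq_one {ψ : X → ℂ} {S : Set X} (hS : IsPreconnected S) (hψ : ContinuousOn ψ S)
    (h : ∀ x ∈ S, exp (ψ x) = 1) {x y : X} (hx : x ∈ S) (hy : y ∈ S) : ψ x = ψ y := by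
  have hd : IsDiscrete (AddSubgroup.zmultiples (2 * π * I : ℂ) : Set ℂ) :=
    ⟨NormedSpace.discreteTopology_zmultiples _⟩
  refine hS.constant_of_mapsTo hd hψ (fun z hz => ?_) hx hy
  obtain ⟨n, hn⟩ := exp_eq_one_iff.1 (h z hz)
  exact ⟨n, by simp [hn]⟩

/-- two closed sets with preconnected intersection -/
theorem HasLog.union {φ : X → ℂ} {A B : Set X} (hA : IsClosed A) (hB : IsClosed B)
    (hAB : IsPreconnected (A ∩ B)) (h1 : HasLog φ A) (h2 : HasLog φ B) : HasLog φ (A ∪ B) := by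
  classical
  obtain ⟨ψ, c1, e1⟩ := h1
  obtain ⟨ψ', c2, e2⟩ := h2
  obtain ⟨c, hc1, hc⟩ : ∃ c : ℂ, exp c = 1 ∧ ∀ x ∈ A ∩ B, ψ x = ψ' x + c := by
    have hh : ∀ x ∈ A ∩ B, exp (ψ x - ψ' x) = 1 := fun x hx => by
      rw [exp_sub, ← e1 x hx.1, e2 x hx.2, div_self (exp_ne_zero _)]
    rcases (A ∩ B).eq_empty_or_nonempty with h | ⟨x₀, hx₀⟩
    · exact ⟨0, exp_zero, fun x hx => by simp [h] at hx⟩
    · refine ⟨ψ x₀ - ψ' x₀, hh _ hx₀, fun x hx => ?_⟩
      have := const_of_exp_eq_one (ψ := fun x => ψ x - ψ' x) hAB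
        ((c1.mono inter_subset_left).sub (c2.mono inter_subset_right)) hh hx hx₀
      linear_combination this
  refine ⟨fun x => if x ∈ A then ψ x else ψ' x + c, ?_, fun x hx => ?_⟩
  · refine ContinuousOn.union_of_isClosed ?_ ?_ hA hB
    · exact c1.congr fun x hx => by simp [hx]
    · refine (c2.add continuousOn_const (g := fun _ => c)).congr fun x hx => ?_
      by_cases hxA : x ∈ A
      · simp [hxA, hc x ⟨hxA, hx⟩]
      · simp [hxA]
  · by_cases hxA : x ∈ A
    · simp [hxA, e1 x hxA]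
    · simp [hxA, exp_add, hc1, e2 x (hx.resolve_left hxA)]

theorem isOpenQuotientMap_circleExp : IsOpenQuotientMap Circle.exp :=
  ⟨Circle.exp_surjective, Circle.exp.continuous, isLocalHomeomorph_circleExp.isOpenMap⟩

theorem circle_zpow_exp (t : ℝ) (j : ℤ) : ((Circle.exp t : ℂ)) ^ j = exp (j * (t * I)) := by
  rw [Circle.coe_exp, exp_int_mul]

/-- the degree in the circle direction -/
theorem exists_deg [PreconnectedSpace X] {φ : X × Circle → ℂ} (hc : Continuous φ)
    (h0 : ∀ z, φ z ≠ 0) (hl : HasLog (fun x => φ (x, 1)) univ) :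
    ∃ j : ℤ, HasLog (fun z : X × Circle => φ z * ((z.2 : ℂ) ^ j)⁻¹) univ := by
  rcases isEmpty_or_nonempty X with hX | ⟨⟨x₀⟩⟩
  · exact ⟨0, 0, continuousOn_const, fun z _ => (hX.false z.1).elim⟩
  let e : X × ℝ → X × Circle := fun z => (z.1, Circle.exp z.2)
  have he : IsOpenQuotientMap e := IsOpenQuotientMap.id.prodMap isOpenQuotientMap_circleExp
  have l1 : HasLog (fun z => φ (e z)) (univ : Set (X × ℝ)) := by
    refine HasLog.of_deform (S' := univ) (S₀ := univ ×ˢ {0})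
      (hc.comp he.continuous).continuousOn (fun z _ => h0 _)
      (h := fun w => (w.2.1, w.1 * w.2.2)) (by fun_prop) (fun _ _ _ _ => mem_univ _)
      (fun x _ => by simp) (fun x _ => by simp) ?_
    refine (hl.comp (g := Prod.fst) (by fun_prop) (mapsTo_univ _ _)).congr ?_
    rintro ⟨x, t⟩ ⟨-, ht⟩
    obtain rfl : t = 0 := ht
    simp [e]
  obtain ⟨Λ, cΛ, eΛ⟩ := l1
  have cΛ' : Continuous Λ := continuousOn_univ.1 cΛ
  have hper : ∀ z : X × ℝ, exp (Λ (z.1, z.2 + 2 * π) - Λ z) = 1 := fun z => by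
    rw [exp_sub, ← eΛ _ (mem_univ _), ← eΛ _ (mem_univ _)]
    simp only [e, Circle.exp_add_two_pi]
    exact div_self (h0 _)
  obtain ⟨j, hj⟩ := exp_eq_one_iff.1 (hper (x₀, 0))
  have hj' : ∀ z : X × ℝ, Λ (z.1, z.2 + 2 * π) - Λ z = j * (2 * π * I) := fun z => by
    rw [← hj]
    exact const_of_exp_eq_one (S := univ) isPreconnected_univ
      (ψ := fun z : X × ℝ => Λ (z.1, z.2 + 2 * π) - Λ z) (by fun_prop) (fun z _ => hper z)
      (mem_univ _) (mem_univ _)
  let Λ' : X × ℝ → ℂ := fun z => Λ z - j * (z.2 * I)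
  have hp : ∀ x, Periodic (fun t => Λ' (x, t)) (2 * π) := fun x t => by
    have := hj' (x, t)
    simp only [Λ'] at this ⊢
    push_cast
    linear_combination this
  let ψ : X × Circle → ℂ := fun z => Λ' (z.1, arg z.2)
  have hψ : ∀ z, ψ (e z) = Λ' z := fun z => by
    obtain ⟨m, hm⟩ := Circle.exp_eq_exp.1 (Circle.exp_arg (Circle.exp z.2))
    simp only [ψ, e, hm]
    exact (hp z.1).int_mul m z.2
  refine ⟨j, ψ, ?_, fun z _ => ?_⟩
  · refine (he.isQuotientMap.continuous_iff.2 ?_).continuousOn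
    have : ψ ∘ e = Λ' := funext hψ
    rw [this]
    fun_prop
  · obtain ⟨w, rfl⟩ := he.surjective z
    have h1 : φ (e w) = exp (Λ w) := eΛ w (mem_univ _)
    show φ (e w) * ((Circle.exp w.2 : ℂ) ^ j)⁻¹ = exp (ψ (e w))
    rw [hψ, h1, circle_zpow_exp]
    simp only [Λ', exp_sub]
    rfl

/-- `u ^ j` has a logarithm on the circle only for `j = 0` -/
theorem deg_unique {j : ℤ} (h : HasLog (fun u : Circle => (u : ℂ) ^ j) univ) : j = 0 := by
  obtain ⟨ψ, c1, e1⟩ := h
  have c1' : Continuous ψ := continuousOn_univ.1 c1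
  have h1 : ∀ t : ℝ, exp (ψ (Circle.exp t) - j * (t * I)) = 1 := fun t => by
    have h1 : (Circle.exp t : ℂ) ^ j = exp (ψ (Circle.exp t)) := e1 _ (mem_univ _)
    rw [exp_sub, ← h1, circle_zpow_exp, div_self (exp_ne_zero _)]
  have h2 := const_of_exp_eq_one (S := univ) isPreconnected_univ
    (ψ := fun t : ℝ => ψ (Circle.exp t) - j * (t * I)) (by fun_prop) (fun t _ => h1 t)
    (mem_univ (2 * π)) (mem_univ 0)
  simp only [Circle.exp_two_pi, Circle.exp_zero, ofReal_zero, zero_mul, mul_zero, sub_zero,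
    sub_eq_self, mul_eq_zero, Int.cast_eq_zero, ofReal_eq_zero, I_ne_zero, or_false] at h2
  rcases h2 with h | h | h
  · exact h
  · norm_num at h
  · exact absurd h Real.pi_ne_zero

theorem exists_deg_circle {φ : Circle → ℂ} (hc : Continuous φ) (h0 : ∀ z, φ z ≠ 0) :
    ∃ j : ℤ, HasLog (fun u : Circle => φ u * ((u : ℂ) ^ j)⁻¹) univ := by
  obtain ⟨j, hj⟩ := exists_deg (X := Unit) (φ := fun z => φ z.2) (by fun_prop) (fun z => h0 _)
    (HasLog.const (h0 1) _)
  exact ⟨j, hj.comp (g := fun u : Circle => ((), u)) (T := univ) (by fun_prop) (mapsTo_univ _ _)⟩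

theorem continuous_circle_zpow (j : ℤ) : Continuous fun u : Circle => (u : ℂ) ^ j :=
  (continuous_subtype_val (p := fun z : ℂ => z ∈ Submonoid.unitSphere ℂ)).zpow₀ j
    fun u => Or.inl (Circle.coe_ne_zero u)

/-- the two degrees of a map on the torus -/
theorem exists_deg_torus {φ : Circle × Circle → ℂ} (hc : Continuous φ) (h0 : ∀ z, φ z ≠ 0) :
    ∃ c d : ℤ, HasLog (fun z : Circle × Circle => φ z * ((z.1 : ℂ) ^ c * (z.2 : ℂ) ^ d)⁻¹) univ := by
  obtain ⟨c, hc'⟩ := exists_deg_circle (φ := fun u => φ (u, 1)) (by fun_prop) fun u => h0 _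
  have n1 : ∀ (u : Circle) (j : ℤ), (u : ℂ) ^ j ≠ 0 := fun u j => zpow_ne_zero _ u.coe_ne_zero
  obtain ⟨d, hd⟩ := exists_deg (X := Circle) (φ := fun z => φ z * ((z.1 : ℂ) ^ c)⁻¹)
    (hc.mul (((continuous_circle_zpow c).comp continuous_fst).inv₀ fun z => n1 _ _))
    (fun z => mul_ne_zero (h0 z) (inv_ne_zero (n1 _ _))) hc'
  exact ⟨c, d, hd.congr fun z _ => by rw [mul_inv, mul_assoc]⟩

theorem deg_unique_torus {c d : ℤ}
    (h : HasLog (fun z : Circle × Circle => (z.1 : ℂ) ^ c * (z.2 : ℂ) ^ d) univ) : c = 0 ∧ d = 0 := by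
  constructor
  · apply deg_unique
    exact (h.comp (g := fun u : Circle => (u, (1 : Circle))) (T := univ) (by fun_prop)
      (mapsTo_univ _ _)).congr fun u _ => by simp
  · apply deg_unique
    exact (h.comp (g := fun u : Circle => ((1 : Circle), u)) (T := univ) (by fun_prop)
      (mapsTo_univ _ _)).congr fun u _ => by simp

/-! ### spheres -/

section sphere

variable {E : Type*} [NormedAddCommGroup E] [InnerProductSpace ℝ E]

/-- the unit sphere of a subspace -/
def Sph (W : Submodule ℝ E) : Set E := {x | x ∈ W ∧ ‖x‖ = 1}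

/-- a closed hemisphere -/
def Hem (W : Submodule ℝ E) (n : E) : Set E := {x | x ∈ Sph W ∧ 0 ≤ inner ℝ n x}

/-- the contraction of a hemisphere to its pole -/
def hcon (n : E) (z : ℝ × E) : E := (‖(1 - z.1) • n + z.1 • z.2‖⁻¹ : ℝ) • ((1 - z.1) • n + z.1 • z.2)

theorem hcon_ne {W : Submodule ℝ E} {n : E} (hn : n ∈ Sph W) {t : ℝ} (ht : t ∈ Icc (0:ℝ) 1) {x : E}
    (hx : x ∈ Hem W n) : (1 - t) • n + t • x ≠ 0 := by
  intro h
  have h1 : inner ℝ n ((1 - t) • n + t • x) = 0 := by rw [h, inner_zero_right]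
  rw [inner_add_right, real_inner_smul_right, real_inner_smul_right, real_inner_self_eq_norm_sq,
    hn.2] at h1
  have h2 : 0 ≤ t * inner ℝ n x := mul_nonneg ht.1 hx.2
  have h3 : t = 1 := by nlinarith [ht.2]
  rw [h3] at h
  simp only [sub_self, zero_smul, one_smul, zero_add] at h
  have := hx.1.2
  rw [h, norm_zero] at this
  exact zero_ne_one this

theorem hcon_cont {W : Submodule ℝ E} {n : E} (hn : n ∈ Sph W) :
    ContinuousOn (hcon n) (Icc 0 1 ×ˢ Hem W n) := by
  have c : Continuous fun z : ℝ × E => (1 - z.1) • n + z.1 • z.2 := by fun_prop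
  exact (c.norm.continuousOn.inv₀ fun z hz => norm_ne_zero_iff.2 (hcon_ne hn hz.1 hz.2)).smul
    c.continuousOn

theorem hcon_mem {W : Submodule ℝ E} {n : E} (hn : n ∈ Sph W) {t : ℝ} (ht : t ∈ Icc (0:ℝ) 1) {x : E}
    (hx : x ∈ Hem W n) : hcon n (t, x) ∈ Sph W := by
  have h := norm_ne_zero_iff.2 (hcon_ne hn ht hx)
  refine ⟨W.smul_mem _ (W.add_mem (W.smul_mem _ hn.1) (W.smul_mem _ hx.1.1)), ?_⟩
  simp only [hcon]
  rw [norm_smul, norm_inv, norm_norm, inv_mul_cancel₀ h]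

theorem hcon_zero {W : Submodule ℝ E} {n : E} (hn : n ∈ Sph W) (x : E) : hcon n (0, x) = n := by
  simp [hcon, hn.2]

theorem hcon_one {W : Submodule ℝ E} {x : E} (hx : x ∈ Sph W) (n : E) : hcon n (1, x) = x := by
  simp [hcon, hx.2]

theorem neg_mem_sph {W : Submodule ℝ E} {n : E} (hn : n ∈ Sph W) : -n ∈ Sph W :=
  ⟨W.neg_mem hn.1, by rw [norm_neg, hn.2]⟩

theorem hem_union (W : Submodule ℝ E) (n : E) : Hem W n ∪ Hem W (-n) = Sph W := by
  ext x
  simp only [Hem, mem_union, mem_ofPred_eq, inner_neg_left, Left.nonneg_neg_iff]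
  exact ⟨fun h => h.elim And.left And.left, fun h => (le_total 0 _).imp (⟨h, ·⟩) (⟨h, ·⟩)⟩

theorem hem_inter (W : Submodule ℝ E) (n : E) : Hem W n ∩ Hem W (-n) = Sph (W ⊓ (ℝ ∙ n)ᗮ) := by
  ext x
  simp only [Hem, Sph, mem_inter_iff, mem_ofPred_eq, inner_neg_left, Left.nonneg_neg_iff,
    Submodule.mem_inf, Submodule.mem_orthogonal_singleton_iff_inner_right]
  constructor
  · rintro ⟨⟨⟨h1, h2⟩, h3⟩, -, h4⟩
    exact ⟨⟨h1, le_antisymm h4 h3⟩, h2⟩
  · rintro ⟨⟨h1, h3⟩, h2⟩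
    exact ⟨⟨⟨h1, h2⟩, h3.ge⟩, ⟨h1, h2⟩, h3.le⟩

variable [FiniteDimensional ℝ E]

theorem isClosed_sph (W : Submodule ℝ E) : IsClosed (Sph W) :=
  W.closed_of_finiteDimensional.inter (isClosed_eq continuous_norm continuous_const)

theorem isClosed_hem (W : Submodule ℝ E) (n : E) : IsClosed (Hem W n) :=
  (isClosed_sph W).inter (isClosed_le (f := fun _ => (0:ℝ)) (g := fun x => inner ℝ n x)
    continuous_const (by fun_prop))

theorem isCompact_sph (W : Submodule ℝ E) : IsCompact (Sph W) :=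
  (isCompact_sphere (0 : E) 1).of_isClosed_subset (isClosed_sph W) fun x hx => by simpa using hx.2

theorem isCompact_hem (W : Submodule ℝ E) (n : E) : IsCompact (Hem W n) :=
  (isCompact_sph W).of_isClosed_subset (isClosed_hem W n) fun _ hx => hx.1

theorem exists_mem_sph {W : Submodule ℝ E} (h : 0 < Module.finrank ℝ W) : ∃ n, n ∈ Sph W := by
  have : Nontrivial W := Module.finrank_pos_iff.1 h
  obtain ⟨w, hw⟩ := exists_ne (0 : W)
  have hw' : ‖(w : E)‖ ≠ 0 := by simpa using hw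
  exact ⟨(‖(w : E)‖⁻¹ : ℝ) • (w : E), W.smul_mem _ w.2, by
    rw [norm_smul, norm_inv, norm_norm, inv_mul_cancel₀ hw']⟩

theorem finrank_inf_orth {W : Submodule ℝ E} {n : E} (hn : n ∈ Sph W) :
    Module.finrank ℝ (W ⊓ (ℝ ∙ n)ᗮ : Submodule ℝ E) + 1 = Module.finrank ℝ W := by
  have hn0 : n ≠ 0 := fun h => by simpa [h] using hn.2
  have hle : (ℝ ∙ n) ≤ W := (Submodule.span_singleton_le_iff_mem _ _).2 hn.1
  have := Submodule.finrank_add_inf_finrank_orthogonal hle
  rw [finrank_span_singleton hn0, inf_comm] at this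
  omega

theorem isPreconnected_sph {W : Submodule ℝ E} (h : 1 < Module.finrank ℝ W) :
    IsPreconnected (Sph W) := by
  have h1 : (1 : Cardinal) < Module.rank ℝ W := by
    rw [← Module.finrank_eq_rank]; exact_mod_cast h
  have h2 := (isPreconnected_sphere h1 (0 : W) 1).image (Subtype.val : W → E)
    continuous_subtype_val.continuousOn
  convert h2 using 1
  ext x
  simp only [Sph, mem_ofPred_eq, mem_image, mem_sphere_iff_norm, sub_zero]
  exact ⟨fun hx => ⟨⟨x, hx.1⟩, hx.2, rfl⟩, by rintro ⟨y, hy, rfl⟩; exact ⟨y.2, hy⟩⟩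

omit [FiniteDimensional ℝ E] in
theorem hasLog_hem {W : Submodule ℝ E} {n : E} (hn : n ∈ Sph W) {φ : E → ℂ}
    (hφ : ContinuousOn φ (Sph W)) (h0 : ∀ x ∈ Sph W, φ x ≠ 0) : HasLog φ (Hem W n) :=
  HasLog.of_deform (S₀ := {n}) hφ h0 (hcon_cont hn) (fun _ ht _ hx => hcon_mem hn ht hx)
    (fun x _ => hcon_zero hn x) (fun _ hx => hcon_one hx.1 n)
    ((HasLog.const (h0 n hn) _).congr fun x hx => by rw [mem_singleton_iff.1 hx])

/-- on a sphere of dimension at least two every nowhere vanishing function has a logarithm -/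
theorem hasLog_sph {W : Submodule ℝ E} (h : 2 < Module.finrank ℝ W) {φ : E → ℂ}
    (hφ : ContinuousOn φ (Sph W)) (h0 : ∀ x ∈ Sph W, φ x ≠ 0) : HasLog φ (Sph W) := by
  obtain ⟨n, hn⟩ := exists_mem_sph (W := W) (by omega)
  rw [← hem_union W n]
  refine HasLog.union (isClosed_hem _ _) (isClosed_hem _ _) ?_ (hasLog_hem hn hφ h0)
    (hasLog_hem (neg_mem_sph hn) hφ h0)
  rw [hem_inter]
  have := finrank_inf_orth hn
  exact isPreconnected_sph (by omega)

end sphere

end

end Crest.Agent.X212.Pic56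
end

-- ▼ part X212/Pic56/Line

/-!
# X212 / Pic56 / Line (helper56): continuous line bundles as rank one projector fields

* `IsLine P S`, `IsFrame P s S` : a field of rank one idempotents on `S`, a nowhere zero section;
* `IsLine.ratio` : two frames differ by a continuous function;
* `IsLine.patch` : frames on two closed sets whose ratio has a logarithm give one frame;
* `IsLine.deform` : frames along a deformation of a compact set;
* `frame_sphere`, `frame_circle`, `frame_solid` : lines on `S^n` (`n ≥ 3`), `S^1`, `D^2 × S^1` are trivial.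
-/

set_option autoImplicit false

open Set Function Complex Metric
open scoped Real Topology

namespace Crest.Agent.X212.Pic56

noncomputable section

variable {V : Type*} [NormedAddCommGroup V] [NormedSpace ℂ V]

section top

variable {X : Type*} [TopologicalSpace X]

/-- a continuous field of rank one idempotents on `S` -/
structure IsLine (P : X → V →L[ℂ] V) (S : Set X) : Prop where
  cont : ContinuousOn P S
  idem : ∀ x ∈ S, ∀ v, P x (P x v) = P x v
  rank : ∀ x ∈ S, ∃ e, e ≠ 0 ∧ P x e = e ∧ ∀ v, P x v = v → ∃ c : ℂ, v = c • e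

/-- a nowhere zero continuous section on `S` -/
structure IsFrame (P : X → V →L[ℂ] V) (s : X → V) (S : Set X) : Prop where
  cont : ContinuousOn s S
  sec : ∀ x ∈ S, P x (s x) = s x
  ne : ∀ x ∈ S, s x ≠ 0

variable {P : X → V →L[ℂ] V} {S : Set X}

theorem IsLine.mono (h : IsLine P S) {T : Set X} (hT : T ⊆ S) : IsLine P T :=
  ⟨h.cont.mono hT, fun x hx => h.idem x (hT hx), fun x hx => h.rank x (hT hx)⟩

theorem IsLine.comp {Y : Type*} [TopologicalSpace Y] (h : IsLine P S) {g : Y → X} {T : Set Y}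
    (hg : ContinuousOn g T) (hm : MapsTo g T S) : IsLine (fun y => P (g y)) T :=
  ⟨h.cont.comp hg hm, fun _ hy => h.idem _ (hm hy), fun _ hy => h.rank _ (hm hy)⟩

theorem IsLine.congr (h : IsLine P S) {Q : X → V →L[ℂ] V} (e : ∀ x ∈ S, Q x = P x) : IsLine Q S :=
  ⟨h.cont.congr e, fun x hx => by rw [e x hx]; exact h.idem x hx,
    fun x hx => by rw [e x hx]; exact h.rank x hx⟩

theorem IsFrame.mono {s : X → V} (h : IsFrame P s S) {T : Set X} (hT : T ⊆ S) : IsFrame P s T :=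
  ⟨h.cont.mono hT, fun x hx => h.sec x (hT hx), fun x hx => h.ne x (hT hx)⟩

theorem IsFrame.comp {Y : Type*} [TopologicalSpace Y] {s : X → V} (h : IsFrame P s S) {g : Y → X}
    {T : Set Y} (hg : ContinuousOn g T) (hm : MapsTo g T S) :
    IsFrame (fun y => P (g y)) (fun y => s (g y)) T :=
  ⟨h.cont.comp hg hm, fun _ hy => h.sec _ (hm hy), fun _ hy => h.ne _ (hm hy)⟩

theorem IsFrame.congr {s : X → V} (h : IsFrame P s S) {Q : X → V →L[ℂ] V} {s' : X → V}
    (e : ∀ x ∈ S, Q x = P x) (e' : ∀ x ∈ S, s' x = s x) : IsFrame Q s' S :=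
  ⟨h.cont.congr e', fun x hx => by rw [e x hx, e' x hx]; exact h.sec x hx,
    fun x hx => by rw [e' x hx]; exact h.ne x hx⟩

theorem IsFrame.smul {s : X → V} (h : IsFrame P s S) {φ : X → ℂ} (hφ : ContinuousOn φ S)
    (h0 : ∀ x ∈ S, φ x ≠ 0) : IsFrame P (fun x => φ x • s x) S :=
  ⟨hφ.smul h.cont, fun x hx => by rw [map_smul, h.sec x hx],
    fun x hx => smul_ne_zero (h0 x hx) (h.ne x hx)⟩

/-- every vector of the line is a multiple of a nonzero one -/
theorem IsLine.exists_smul (h : IsLine P S) {x : X} (hx : x ∈ S) {v w : V} (hv : P x v = v)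
    (hv0 : v ≠ 0) (hw : P x w = w) : ∃ c : ℂ, w = c • v := by
  obtain ⟨e, -, -, he⟩ := h.rank x hx
  obtain ⟨a, rfl⟩ := he v hv
  obtain ⟨b, rfl⟩ := he w hw
  have ha : a ≠ 0 := fun h0 => hv0 (by rw [h0, zero_smul])
  exact ⟨b / a, by rw [smul_smul, div_mul_cancel₀ _ ha]⟩

/-- a section is a continuous multiple of a frame -/
theorem IsLine.ratio_sec (h : IsLine P S) {s s' : X → V} (hs : IsFrame P s S)
    (c' : ContinuousOn s' S) (h' : ∀ x ∈ S, P x (s' x) = s' x) :
    ∃ φ : X → ℂ, ContinuousOn φ S ∧ ∀ x ∈ S, s' x = φ x • s x := by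
  classical
  have h1 : ∀ x, ∃ c : ℂ, x ∈ S → s' x = c • s x := fun x => by
    by_cases hx : x ∈ S
    · obtain ⟨c, hc⟩ := h.exists_smul hx (hs.sec x hx) (hs.ne x hx) (h' x hx)
      exact ⟨c, fun _ => hc⟩
    · exact ⟨0, fun hh => absurd hh hx⟩
  choose φ hφ using h1
  refine ⟨φ, fun x₀ hx₀ => ?_, hφ⟩
  obtain ⟨l, hl⟩ := SeparatingDual.exists_ne_zero (R := ℂ) (hs.ne x₀ hx₀)
  have c1 : ContinuousWithinAt (fun x => l (s x)) S x₀ :=
    l.continuous.continuousAt.comp_continuousWithinAt (hs.cont x₀ hx₀)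
  have c2 : ContinuousWithinAt (fun x => l (s' x)) S x₀ :=
    l.continuous.continuousAt.comp_continuousWithinAt (c' x₀ hx₀)
  have e : ∀ x ∈ S, l (s x) ≠ 0 → φ x = l (s' x) / l (s x) := fun x hx hn => by
    rw [hφ x hx, map_smul, smul_eq_mul, mul_div_cancel_right₀ _ hn]
  refine (c2.div c1 hl).congr_of_eventuallyEq ?_ (e x₀ hx₀ hl)
  filter_upwards [c1.eventually_ne hl, self_mem_nhdsWithin] with x h1 h2 using e x h2 h1

/-- two frames differ by a nowhere zero continuous function -/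
theorem IsLine.ratio (h : IsLine P S) {s s' : X → V} (hs : IsFrame P s S) (hs' : IsFrame P s' S) :
    ∃ φ : X → ℂ, ContinuousOn φ S ∧ (∀ x ∈ S, φ x ≠ 0) ∧ ∀ x ∈ S, s' x = φ x • s x := by
  obtain ⟨φ, h1, h2⟩ := h.ratio_sec hs hs'.cont hs'.sec
  exact ⟨φ, h1, fun x hx h0 => hs'.ne x hx (by rw [h2 x hx, h0, zero_smul]), h2⟩

/-- frames on two closed sets which agree on the intersection -/
theorem IsFrame.glue {A B : Set X} (hA : IsClosed A) (hB : IsClosed B) {s s' : X → V}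
    (hs : IsFrame P s A) (hs' : IsFrame P s' B) (e : ∀ x ∈ A ∩ B, s x = s' x) :
    ∃ t, IsFrame P t (A ∪ B) ∧ (∀ x ∈ A, t x = s x) ∧ ∀ x ∈ B, t x = s' x := by
  classical
  have eA : ∀ x ∈ A, (if x ∈ A then s x else s' x) = s x := fun x hx => if_pos hx
  have eB : ∀ x ∈ B, (if x ∈ A then s x else s' x) = s' x := fun x hx => by
    by_cases hxA : x ∈ A
    · rw [if_pos hxA, e x ⟨hxA, hx⟩]
    · rw [if_neg hxA]
  have fA := hs.congr (Q := P) (fun _ _ => rfl) eA
  have fB := hs'.congr (Q := P) (fun _ _ => rfl) eB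
  exact ⟨_, ⟨fA.cont.union_of_isClosed fB.cont hA hB, fun x hx => hx.elim (fA.sec x) (fB.sec x),
    fun x hx => hx.elim (fA.ne x) (fB.ne x)⟩, eA, eB⟩

/-- Tietze for complex functions on a closed set -/
theorem exists_extend [NormalSpace X] {A : Set X} (hA : IsClosed A) {ψ : X → ℂ}
    (hψ : ContinuousOn ψ A) : ∃ Ψ : X → ℂ, Continuous Ψ ∧ ∀ x ∈ A, Ψ x = ψ x := by
  obtain ⟨g, hg⟩ := ContinuousMap.exists_restrict_eq hA
    ⟨A.domRestrict ψ, continuousOn_iff_continuous_domRestrict.1 hψ⟩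
  exact ⟨g, g.continuous, fun x hx => DFunLike.congr_fun hg ⟨x, hx⟩⟩

/-- frames on two closed sets, all units on the intersection having logarithms -/
theorem IsLine.patch [NormalSpace X] {A B : Set X} (hA : IsClosed A) (hB : IsClosed B)
    (h : IsLine P (A ∩ B)) {s s' : X → V} (hs : IsFrame P s A) (hs' : IsFrame P s' B)
    (hl : ∀ φ : X → ℂ, ContinuousOn φ (A ∩ B) → (∀ x ∈ A ∩ B, φ x ≠ 0) →
      (∀ x ∈ A ∩ B, s x = φ x • s' x) → HasLog φ (A ∩ B)) :
    ∃ t, IsFrame P t (A ∪ B) ∧ ∀ x ∈ A, t x = s x := by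
  obtain ⟨φ, h1, h2, h3⟩ := h.ratio (hs'.mono inter_subset_right) (hs.mono inter_subset_left)
  obtain ⟨ψ, c1, e1⟩ := hl φ h1 h2 h3
  obtain ⟨Ψ, c2, e2⟩ := exists_extend (hA.inter hB) c1
  obtain ⟨t, ht, h4, -⟩ := IsFrame.glue hA hB hs
    (hs'.smul (φ := fun x => exp (Ψ x)) (by fun_prop) fun x _ => exp_ne_zero _)
    fun x hx => by rw [h3 x hx, e1 x hx, e2 x hx]
  exact ⟨t, ht, h4⟩

end top

section metric

variable {X : Type*} [PseudoMetricSpace X] {P : X → V →L[ℂ] V} {S : Set X}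

theorem apply_ne_zero_of_close {Q Q' : V →L[ℂ] V} (h : ‖Q' - Q‖ < 1) {v : V} (hv : Q v = v)
    (h0 : v ≠ 0) : Q' v ≠ 0 := by
  intro h1
  have h2 : (Q' - Q) v = -v := by simp [h1, hv]
  have h3 := (Q' - Q).le_opNorm v
  rw [h2, norm_neg] at h3
  have h4 := norm_pos_iff.2 h0
  nlinarith

/-- frames along a deformation of a compact set -/
theorem IsLine.deform (hP : IsLine P S) {K S₀ : Set X} (hK : IsCompact K) {h : ℝ × X → X}
    (hc : ContinuousOn h (Icc 0 1 ×ˢ K)) (hm : ∀ t ∈ Icc (0:ℝ) 1, ∀ x ∈ K, h (t, x) ∈ S)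
    (e0 : ∀ x ∈ K, h (0, x) ∈ S₀) (e1 : ∀ x ∈ K, h (1, x) = x) {s : X → V} (hs : IsFrame P s S₀) :
    ∃ t, IsFrame P t K := by
  have cQ : ContinuousOn (fun z => P (h z)) (Icc 0 1 ×ˢ K) :=
    hP.cont.comp hc fun z hz => hm _ hz.1 _ hz.2
  have uQ := (isCompact_Icc.prod hK).uniformContinuousOn_of_continuous cQ
  obtain ⟨δ, hδ, hu⟩ := Metric.uniformContinuousOn_iff.1 uQ 1 one_pos
  obtain ⟨N, hN⟩ := exists_nat_one_div_lt hδ
  have hN0 : (0:ℝ) < (N:ℝ) + 1 := by positivity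
  have hI : ∀ k : ℕ, k ≤ N + 1 → (k:ℝ) / (N + 1) ∈ Icc (0:ℝ) 1 := fun k hk =>
    ⟨by positivity, (div_le_one hN0).2 (by exact_mod_cast hk)⟩
  have ct : ∀ t ∈ Icc (0:ℝ) 1, ContinuousOn (fun x => h (t, x)) K := fun t ht =>
    hc.comp (by fun_prop) fun x hx => ⟨ht, hx⟩
  have key : ∀ k : ℕ, k ≤ N + 1 → ∃ t, IsFrame (fun x => P (h ((k:ℝ) / (N + 1), x))) t K := by
    intro k
    induction k with
    | zero =>
      intro _
      simp only [Nat.cast_zero, zero_div]
      exact ⟨_, hs.comp (ct 0 ⟨le_rfl, zero_le_one⟩) e0⟩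
    | succ k ih =>
      intro hk
      obtain ⟨t, ht⟩ := ih (by omega)
      refine ⟨fun x => P (h (((k + 1 : ℕ):ℝ) / (N + 1), x)) (t x), ?_, fun x hx => ?_, fun x hx => ?_⟩
      · exact (hP.cont.comp (ct _ (hI _ hk)) fun x hx => hm _ (hI _ hk) _ hx).clm_apply ht.cont
      · exact hP.idem _ (hm _ (hI _ hk) _ hx) _
      · refine apply_ne_zero_of_close ?_ (ht.sec x hx) (ht.ne x hx)
        rw [← dist_eq_norm]
        refine hu (_, x) ⟨hI _ hk, hx⟩ (_, x) ⟨hI _ (by omega), hx⟩ ?_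
        rw [Prod.dist_eq, dist_self, Real.dist_eq, max_lt_iff]
        refine ⟨?_, hδ⟩
        rw [← sub_div]
        push_cast
        rw [add_sub_cancel_left, abs_of_pos (by positivity)]
        exact hN
  obtain ⟨t, ht⟩ := key (N + 1) le_rfl
  refine ⟨t, ht.congr (fun x hx => ?_) fun _ _ => rfl⟩
  push_cast
  rw [div_self hN0.ne', e1 x hx]

theorem IsLine.frame_singleton {X : Type*} [TopologicalSpace X] {P : X → V →L[ℂ] V} {S : Set X}
    (hP : IsLine P S) {x : X} (hx : x ∈ S) : ∃ s, IsFrame P s {x} := by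
  obtain ⟨e, h1, h2, -⟩ := hP.rank x hx
  exact ⟨fun _ => e, continuousOn_const, fun y hy => by rw [mem_singleton_iff.1 hy, h2],
    fun _ _ => h1⟩

end metric

section sphere

variable {E : Type*} [NormedAddCommGroup E] [InnerProductSpace ℝ E] [FiniteDimensional ℝ E]

theorem frame_hem {W : Submodule ℝ E} {n : E} (hn : n ∈ Sph W) {P : E → V →L[ℂ] V}
    (hP : IsLine P (Sph W)) : ∃ s, IsFrame P s (Hem W n) := by
  obtain ⟨s, hs⟩ := hP.frame_singleton hn
  exact hP.deform (isCompact_hem W n) (hcon_cont hn) (fun _ ht _ hx => hcon_mem hn ht hx)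
    (fun x _ => hcon_zero hn x) (fun _ hx => hcon_one hx.1 n) hs

theorem finite_sph {W : Submodule ℝ E} (h : Module.finrank ℝ W = 1) : (Sph W).Finite := by
  obtain ⟨m, hm⟩ := exists_mem_sph (W := W) (by omega)
  refine (toFinite {m, -m}).subset fun x hx => ?_
  have hm0 : (⟨m, hm.1⟩ : W) ≠ 0 := fun h0 => by
    have : m = 0 := congrArg Subtype.val h0
    simpa [this] using hm.2
  obtain ⟨c, hc⟩ := (finrank_eq_one_iff_of_nonzero' _ hm0).1 h ⟨x, hx.1⟩
  have hc' : c • m = x := congrArg Subtype.val hc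
  have h1 : |c| = 1 := by
    have := hx.2
    rwa [← hc', norm_smul, hm.2, mul_one] at this
  rcases (abs_eq zero_le_one).1 h1 with h1 | h1 <;> simp [← hc', h1]

theorem hasLog_finite {X : Type*} [TopologicalSpace X] [T1Space X] {φ : X → ℂ} {S : Set X}
    (hS : S.Finite) (h0 : ∀ x ∈ S, φ x ≠ 0) : HasLog φ S :=
  ⟨fun x => log (φ x), hS.continuousOn _, fun x hx => (exp_log (h0 x hx)).symm⟩

theorem frame_sph {W : Submodule ℝ E} (h : Module.finrank ℝ W = 2 ∨ 3 < Module.finrank ℝ W)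
    {P : E → V →L[ℂ] V} (hP : IsLine P (Sph W)) : ∃ s, IsFrame P s (Sph W) := by
  obtain ⟨n, hn⟩ := exists_mem_sph (W := W) (by omega)
  obtain ⟨s, hs⟩ := frame_hem hn hP
  obtain ⟨s', hs'⟩ := frame_hem (neg_mem_sph hn) hP
  have hr := finrank_inf_orth hn
  obtain ⟨t, ht, -⟩ := IsLine.patch (isClosed_hem W n) (isClosed_hem W (-n))
    (hP.mono fun x hx => hx.1.1) hs hs' (fun φ h1 h2 _ => by
      rw [hem_inter] at h1 h2 ⊢
      rcases h with h | h
      · exact hasLog_finite (finite_sph (by omega)) h2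
      · exact hasLog_sph (by omega) h1 h2)
  exact ⟨t, hem_union W n ▸ ht⟩

omit [InnerProductSpace ℝ E] [FiniteDimensional ℝ E] in
theorem exists_extend_sphere {Z : Type*} [TopologicalSpace Z] [Nonempty Z]
    {g : sphere (0 : E) 1 → Z} (hg : Continuous g) :
    ∃ G : E → Z, ContinuousOn G (sphere 0 1) ∧ ∀ x : sphere (0 : E) 1, G x = g x := by
  have e : ∀ x : sphere (0 : E) 1, Function.extend Subtype.val g (fun _ => Classical.arbitrary Z) x
      = g x := fun x => Subtype.val_injective.extend_apply _ _ x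
  refine ⟨_, ?_, e⟩
  rw [continuousOn_iff_continuous_domRestrict]
  exact hg.congr fun x => (e x).symm

omit [FiniteDimensional ℝ E] in
theorem sph_top : Sph (⊤ : Submodule ℝ E) = sphere 0 1 := by
  ext x; simp [Sph]

/-- on a sphere of dimension at least two every nowhere vanishing function has a logarithm -/
theorem hasLog_sphere (h : 2 < Module.finrank ℝ E) {φ : sphere (0 : E) 1 → ℂ} (hφ : Continuous φ)
    (h0 : ∀ x, φ x ≠ 0) : HasLog φ univ := by
  obtain ⟨G, h1, h2⟩ := exists_extend_sphere hφ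
  have h3 : HasLog G (Sph (⊤ : Submodule ℝ E)) := hasLog_sph (by simpa using h) (sph_top (E := E) ▸ h1)
    fun x hx => by
      rw [sph_top] at hx
      rw [h2 ⟨x, hx⟩]; exact h0 _
  rw [sph_top] at h3
  exact (h3.comp (g := Subtype.val) (T := univ) continuous_subtype_val.continuousOn
    fun x _ => x.2).congr fun x _ => (h2 x).symm

/-- lines on the circle and on spheres of dimension at least three are trivial -/
theorem frame_sphere (h : Module.finrank ℝ E = 2 ∨ 3 < Module.finrank ℝ E)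
    {P : sphere (0 : E) 1 → V →L[ℂ] V} (hP : IsLine P univ) : ∃ s, IsFrame P s univ := by
  obtain ⟨G, h1, h2⟩ := exists_extend_sphere (continuousOn_univ.1 hP.cont)
  have h3 : IsLine G (Sph (⊤ : Submodule ℝ E)) := by
    rw [sph_top]
    exact ⟨h1, fun x hx => by rw [h2 ⟨x, hx⟩]; exact hP.idem _ (mem_univ _),
      fun x hx => by rw [h2 ⟨x, hx⟩]; exact hP.rank _ (mem_univ _)⟩
  obtain ⟨s, hs⟩ := frame_sph (by simpa using h) h3
  rw [sph_top] at hs
  exact ⟨_, (hs.comp (g := Subtype.val) (T := univ) continuous_subtype_val.continuousOn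
    fun x _ => x.2).congr (fun x _ => (h2 x).symm) fun _ _ => rfl⟩

end sphere

theorem frame_circle {P : Circle → V →L[ℂ] V} (hP : IsLine P univ) : ∃ s, IsFrame P s univ :=
  frame_sphere (E := ℂ) (Or.inl Complex.finrank_real_complex) hP

/-- the radial contraction of the closed disc -/
def dcon (t : ℝ) (z : closedBall (0 : ℂ) 1) : closedBall (0 : ℂ) 1 :=
  ⟨((projIcc (0:ℝ) 1 zero_le_one t : ℝ) : ℂ) * z, by
    have h1 := (projIcc (0:ℝ) 1 zero_le_one t).2
    have h2 := mem_closedBall_zero_iff.1 z.2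
    rw [mem_closedBall_zero_iff, norm_mul, norm_real, Real.norm_eq_abs, abs_of_nonneg h1.1]
    exact mul_le_one₀ h1.2 (norm_nonneg _) h2⟩

theorem continuous_dcon : Continuous fun w : ℝ × closedBall (0 : ℂ) 1 => dcon w.1 w.2 := by
  refine Continuous.subtype_mk ?_ _
  have := continuous_projIcc (h := (zero_le_one : (0:ℝ) ≤ 1))
  fun_prop

/-- the centre of the disc -/
def d0 : closedBall (0 : ℂ) 1 := ⟨0, by simp⟩

theorem dcon_zero (z : closedBall (0 : ℂ) 1) : dcon 0 z = d0 := by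
  ext; simp [dcon, d0]

theorem dcon_one (z : closedBall (0 : ℂ) 1) : dcon 1 z = z := by
  ext; simp [dcon]

/-- lines on the solid torus are trivial -/
theorem frame_solid {P : closedBall (0 : ℂ) 1 × Circle → V →L[ℂ] V} (hP : IsLine P univ) :
    ∃ s, IsFrame P s univ := by
  obtain ⟨s, hs⟩ := frame_circle (hP.comp (g := fun y : Circle => (d0, y)) (T := univ)
    (by fun_prop) (mapsTo_univ _ _))
  have := continuous_dcon
  refine hP.deform (S₀ := {d0} ×ˢ univ) isCompact_univ (h := fun w => (dcon w.1 w.2.1, w.2.2))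
    (Continuous.continuousOn (.prodMk (this.comp (by fun_prop :
      Continuous fun w : ℝ × closedBall (0 : ℂ) 1 × Circle => (w.1, w.2.1))) (by fun_prop)))
    (fun _ _ _ _ => mem_univ _) (fun x _ => ⟨dcon_zero _, mem_univ _⟩)
    (fun x _ => by simp [dcon_one]) (s := fun w => s w.2) ?_
  refine (hs.comp (g := Prod.snd) (by fun_prop) (mapsTo_univ _ _)).congr ?_ fun _ _ => rfl
  rintro ⟨z, y⟩ ⟨hz, -⟩
  obtain rfl : z = d0 := hz
  rfl

/-- the degree of a nowhere vanishing function on the solid torus -/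
theorem exists_deg_solid {φ : closedBall (0 : ℂ) 1 × Circle → ℂ} (hc : Continuous φ)
    (h0 : ∀ z, φ z ≠ 0) :
    ∃ j : ℤ, HasLog (fun z : closedBall (0 : ℂ) 1 × Circle => φ z * ((z.2 : ℂ) ^ j)⁻¹) univ := by
  have : PreconnectedSpace (closedBall (0 : ℂ) 1) :=
    isPreconnected_iff_preconnectedSpace.1 (convex_closedBall _ _).isPreconnected
  refine exists_deg hc h0 ?_
  refine HasLog.of_deform (S' := univ) (S₀ := {d0}) (by fun_prop) (fun _ _ => h0 _)
    (h := fun w => dcon w.1 w.2) continuous_dcon.continuousOn (fun _ _ _ _ => mem_univ _)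
    (fun x _ => dcon_zero x) (fun x _ => dcon_one x) ?_
  exact (HasLog.const (h0 (d0, 1)) _).congr fun x hx => by rw [mem_singleton_iff.1 hx]

end

end Crest.Agent.X212.Pic56
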