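import Crest.Agent.X212.Pic56.Line
import Crest.Prelude.Def_DehnFilling
import Crest.Agent.X212.Pic56.Mat
import Crest.Agent.X212.Ext52.Defs

-- ▼ part X212/Pic56/Fill
section

/-!
# X212 / Pic56 / Fill (helper56): lines on a Dehn filling

`HasType T σ P j` : the line `P` on `SlopeFilling T σ` has frames on the exterior and on the filling
torus whose ratio on the boundary torus is `u ^ j` (`u` the coordinate along the knot).

* `exists_type` : every line has a type;
* `HasType.frame`, `HasType.of_frame` : type `0` = globally framed;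
* with a Seifert map `θ` (`= v` on the boundary torus): `HasType.add_mul`, `HasType.dvd_sub` :
  the type is well defined exactly modulo `p`.
-/

set_option autoImplicit false

open Set Function Complex Metric Topology
open scoped Real
open Crest.GeometryTopology.DehnSurgery

namespace Crest.Agent.X212.Pic56

noncomputable section

variable {V : Type*} [NormedAddCommGroup V] [NormedSpace ℂ V]

/-- the coframe of a framed line -/
theorem IsLine.coframe {X : Type*} [TopologicalSpace X] {P : X → V →L[ℂ] V} {S : Set X}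
    (h : IsLine P S) {s : X → V} (hs : IsFrame P s S) :
    ∃ l : X → V →L[ℂ] ℂ, ContinuousOn l S ∧ ∀ x ∈ S, ∀ v, P x v = l x v • s x := by
  classical
  have e : ∀ x ∈ S, ∀ m : V →L[ℂ] ℂ, m (s x) ≠ 0 → ∀ v,
      P x v = ((m (s x))⁻¹ • m.comp (P x)) v • s x := fun x hx m hm v => by
    obtain ⟨c, hc⟩ := h.exists_smul hx (hs.sec x hx) (hs.ne x hx) (h.idem x hx v)
    simp only [_root_.smul_apply, ContinuousLinearMap.comp_apply, smul_eq_mul]
    rw [hc, map_smul, smul_eq_mul, mul_comm c, ← mul_assoc, inv_mul_cancel₀ hm, one_mul]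
  have h1 : ∀ x, ∃ l : V →L[ℂ] ℂ, x ∈ S → ∀ v, P x v = l v • s x := fun x => by
    by_cases hx : x ∈ S
    · obtain ⟨m, hm⟩ := SeparatingDual.exists_ne_zero (R := ℂ) (hs.ne x hx)
      exact ⟨_, fun _ => e x hx m hm⟩
    · exact ⟨0, fun hh => absurd hh hx⟩
  choose l hl using h1
  refine ⟨l, fun x₀ hx₀ => ?_, hl⟩
  obtain ⟨m, hm⟩ := SeparatingDual.exists_ne_zero (R := ℂ) (hs.ne x₀ hx₀)
  have c1 : ContinuousWithinAt (fun x => m (s x)) S x₀ :=
    m.continuous.continuousAt.comp_continuousWithinAt (hs.cont x₀ hx₀)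
  have c2 : ContinuousWithinAt (fun x => m.comp (P x)) S x₀ :=
    continuousWithinAt_const.clm_comp (h.cont x₀ hx₀)
  have e2 : ∀ x ∈ S, m (s x) ≠ 0 → l x = (m (s x))⁻¹ • m.comp (P x) := fun x hx hn => by
    ext v
    exact smul_left_injective ℂ (hs.ne x hx) ((hl x hx v).symm.trans (e x hx m hn v))
  refine ((c1.inv₀ hm).smul c2).congr_of_eventuallyEq ?_ (e2 x₀ hx₀ hm)
  filter_upwards [c1.eventually_ne hm, self_mem_nhdsWithin] with x h1 h2 using e2 x h2 h1

/-- the line spanned by `s`, along the kernel of `l` -/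
theorem isLine_smulRight {X : Type*} [TopologicalSpace X] {S : Set X} {s : X → V}
    {l : X → V →L[ℂ] ℂ} (cs : ContinuousOn s S) (cl : ContinuousOn l S)
    (h : ∀ x ∈ S, l x (s x) = 1) :
    IsLine (fun x => (l x).smulRight (s x)) S ∧ IsFrame (fun x => (l x).smulRight (s x)) s S := by
  have h0 : ∀ x ∈ S, s x ≠ 0 := fun x hx h0 => by simpa [h0] using h x hx
  refine ⟨⟨?_, fun x hx v => by simp [h x hx], fun x hx => ⟨s x, h0 x hx, by simp [h x hx],
    fun v hv => ⟨l x v, hv.symm⟩⟩⟩, cs, fun x hx => by simp [h x hx], h0⟩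
  exact ((ContinuousLinearMap.smulRightL ℂ V V).continuous.comp_continuousOn cl).clm_apply cs

variable (T : ThickKnot) (σ : FillingData)

/-- the exterior in the filling -/
def inE (e : T.exterior) : SlopeFilling T σ := Quot.mk _ (.inl e)

/-- the solid torus in the filling -/
def inV (w : FillingTorus) : SlopeFilling T σ := Quot.mk _ (.inr w)

theorem continuous_inE : Continuous (inE T σ) := continuous_quot_mk.comp continuous_inl

theorem continuous_inV : Continuous (inV T σ) := continuous_quot_mk.comp continuous_inr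

/-- a point of the unit circle as a point of the disc -/
def bd (x : Circle) : closedBall (0 : ℂ) 1 := ⟨x, mem_closedBall_zero_iff.2 (Circle.norm_coe x).le⟩

theorem continuous_bd : Continuous bd :=
  (continuous_subtype_val (p := fun z : ℂ => z ∈ Submonoid.unitSphere ℂ)).subtype_mk _

theorem bd_injective : Injective bd := fun _ _ h =>
  Circle.ext (congrArg (Subtype.val : closedBall (0 : ℂ) 1 → ℂ) h)

/-- the point of the filling torus glued to `τ (u, v)` -/
def bV (z : Circle × Circle) : FillingTorus :=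
  (bd (z.1 ^ σ.a * z.2 ^ (-σ.b)), z.1 ^ (-σ.p) * z.2 ^ σ.q)

/-- the point `τ (u, v)` of the exterior -/
def bE (z : Circle × Circle) : T.exterior := T.boundaryPoint z.1 z.2

theorem continuous_bV : Continuous (bV σ) :=
  (continuous_bd.comp (by fun_prop)).prodMk (by fun_prop)

theorem continuous_bE : Continuous (bE T) :=
  (T.isOpenEmbedding.continuous.comp (continuous_fst.prodMk
    ((continuous_subtype_val (p := fun z : ℂ => z ∈ Submonoid.unitSphere ℂ)).comp
      continuous_snd))).subtype_mk _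

theorem uv_fst (u v : Circle) :
    (u ^ σ.a * v ^ (-σ.b)) ^ σ.q * (u ^ (-σ.p) * v ^ σ.q) ^ σ.b = u := by
  have h1 : σ.a * σ.q + -σ.p * σ.b = 1 := by linear_combination σ.det
  have h2 : -σ.b * σ.q + σ.q * σ.b = 0 := by ring
  rw [mul_zpow, mul_zpow, ← zpow_mul, ← zpow_mul, ← zpow_mul, ← zpow_mul, mul_mul_mul_comm,
    ← zpow_add, ← zpow_add, h1, h2, zpow_one, zpow_zero, mul_one]

theorem uv_snd (u v : Circle) :
    (u ^ σ.a * v ^ (-σ.b)) ^ σ.p * (u ^ (-σ.p) * v ^ σ.q) ^ σ.a = v := by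
  have h1 : -σ.b * σ.p + σ.q * σ.a = 1 := by linear_combination σ.det
  have h2 : σ.a * σ.p + -σ.p * σ.a = 0 := by ring
  rw [mul_zpow, mul_zpow, ← zpow_mul, ← zpow_mul, ← zpow_mul, ← zpow_mul, mul_mul_mul_comm,
    ← zpow_add, ← zpow_add, h1, h2, zpow_one, zpow_zero, one_mul]

theorem xy_fst (x y : Circle) :
    (x ^ σ.q * y ^ σ.b) ^ σ.a * (x ^ σ.p * y ^ σ.a) ^ (-σ.b) = x := by
  have h1 : σ.q * σ.a + σ.p * -σ.b = 1 := by linear_combination σ.det
  have h2 : σ.b * σ.a + σ.a * -σ.b = 0 := by ring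
  rw [mul_zpow, mul_zpow, ← zpow_mul, ← zpow_mul, ← zpow_mul, ← zpow_mul, mul_mul_mul_comm,
    ← zpow_add, ← zpow_add, h1, h2, zpow_one, zpow_zero, mul_one]

theorem xy_snd (x y : Circle) :
    (x ^ σ.q * y ^ σ.b) ^ (-σ.p) * (x ^ σ.p * y ^ σ.a) ^ σ.q = y := by
  have h1 : σ.b * -σ.p + σ.a * σ.q = 1 := by linear_combination σ.det
  have h2 : σ.q * -σ.p + σ.p * σ.q = 0 := by ring
  rw [mul_zpow, mul_zpow, ← zpow_mul, ← zpow_mul, ← zpow_mul, ← zpow_mul, mul_mul_mul_comm,
    ← zpow_add, ← zpow_add, h1, h2, zpow_one, zpow_zero, one_mul]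

theorem bV_xy (x y : Circle) : bV σ (x ^ σ.q * y ^ σ.b, x ^ σ.p * y ^ σ.a) = (bd x, y) := by
  simp only [bV, xy_fst, xy_snd]

theorem bV_injective : Injective (bV σ) := by
  rintro ⟨u, v⟩ ⟨u', v'⟩ h
  have h1 := bd_injective (congrArg Prod.fst h)
  have h2 := congrArg Prod.snd h
  simp only [bV] at h1 h2
  rw [← uv_fst σ u v, ← uv_fst σ u' v', Prod.mk.injEq]
  refine ⟨by rw [h1, h2], ?_⟩
  rw [← uv_snd σ u v, ← uv_snd σ u' v', h1, h2]

theorem bE_injective : Injective fun z => (bE T z : S3) := by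
  rintro ⟨u, v⟩ ⟨u', v'⟩ h
  have h1 := T.isOpenEmbedding.injective h
  simp only [Prod.mk.injEq] at h1
  exact Prod.ext h1.1 (Circle.ext h1.2)

theorem inE_bE (z : Circle × Circle) : inE T σ (bE T z) = inV T σ (bV σ z) := by
  have h := Quot.sound (GlueRel.glue (T := T) (σ := σ) (z.1 ^ σ.a * z.2 ^ (-σ.b))
    (z.1 ^ (-σ.p) * z.2 ^ σ.q))
  rw [uv_fst, uv_snd] at h
  exact h.symm

/-- functions on the filling from functions on the two pieces -/
theorem exists_lift {Z : Type*} [TopologicalSpace Z] {gE : T.exterior → Z} {gV : FillingTorus → Z}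
    (cE : Continuous gE) (cV : Continuous gV) (h : ∀ z, gE (bE T z) = gV (bV σ z)) :
    ∃ g : SlopeFilling T σ → Z, Continuous g ∧ (∀ e, g (inE T σ e) = gE e) ∧
      ∀ w, g (inV T σ w) = gV w := by
  refine ⟨Quot.lift (Sum.elim gE gV) ?_, continuous_quot_lift _ (cE.sumElim cV), fun _ => rfl,
    fun _ => rfl⟩
  rintro _ _ ⟨x, y⟩
  have := h (x ^ σ.q * y ^ σ.b, x ^ σ.p * y ^ σ.a)
  rw [bV_xy] at this
  exact this.symm

theorem fill_cases (y : SlopeFilling T σ) : (∃ e, y = inE T σ e) ∨ ∃ w, y = inV T σ w := by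
  obtain ⟨a | a⟩ := y
  · exact Or.inl ⟨a, rfl⟩
  · exact Or.inr ⟨a, rfl⟩

theorem isClosed_exterior : IsClosed T.exterior :=
  (T.isOpenEmbedding.isOpenMap _ (isOpen_univ.prod isOpen_ball)).isClosed_compl

theorem isClosed_tube : IsClosed T.tube :=
  ((isCompact_univ.prod (isCompact_closedBall _ _)).image T.isOpenEmbedding.continuous).isClosed

theorem ext_union_tube : T.exterior ∪ T.tube = univ := by
  refine eq_univ_of_forall fun x => ?_
  by_cases hx : x ∈ T.exterior
  · exact Or.inl hx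
  · exact Or.inr (image_mono (prod_mono le_rfl ball_subset_closedBall) (not_not.1 hx))

theorem mem_inter {x : S3} (h1 : x ∈ T.exterior) (h2 : x ∈ T.tube) : ∃ z, (bE T z : S3) = x := by
  obtain ⟨⟨u, w⟩, ⟨-, hw⟩, rfl⟩ := h2
  have h3 : ‖w‖ = 1 := by
    refine le_antisymm (mem_closedBall_zero_iff.1 hw) (not_lt.1 fun h => h1 ?_)
    exact ⟨(u, w), ⟨mem_univ _, mem_ball_zero_iff.2 h⟩, rfl⟩
  exact ⟨(u, ⟨w, mem_sphere_zero_iff_norm.2 h3⟩), rfl⟩

/-- the closed tube, parametrised by the solid torus -/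
def tb (w : FillingTorus) : S3 := T.τ (w.2, w.1)

theorem continuous_tb : Continuous (tb T) := T.isOpenEmbedding.continuous.comp (by fun_prop)

theorem tb_mem (w : FillingTorus) : tb T w ∈ T.tube := ⟨(w.2, w.1), ⟨mem_univ _, w.1.2⟩, rfl⟩

theorem tb_bd (z : Circle × Circle) : tb T (bd z.2, z.1) = bE T z := rfl

theorem exists_ext_emb {A B Z : Type*} [TopologicalSpace A] [CompactSpace A] [MetricSpace B]
    [NormedAddCommGroup Z] [NormedSpace ℂ Z] [FiniteDimensional ℂ Z] {e : A → B} (he : Continuous e)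
    (hi : Injective e) {g : A → Z} (hg : Continuous g) :
    ∃ G : B → Z, Continuous G ∧ ∀ a, G (e a) = g a := by
  have : TietzeExtension Z := TietzeExtension.of_tvs ℂ
  obtain ⟨G, hG⟩ := ContinuousMap.exists_extension (he.isClosedEmbedding hi) ⟨g, hg⟩
  exact ⟨G, G.continuous, fun a => DFunLike.congr_fun hG a⟩

/-- the clutching type of a line on the filling -/
def HasType (P : SlopeFilling T σ → V →L[ℂ] V) (j : ℤ) : Prop :=
  ∃ (sE : T.exterior → V) (sV : FillingTorus → V),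
    IsFrame (fun e => P (inE T σ e)) sE univ ∧ IsFrame (fun w => P (inV T σ w)) sV univ ∧
    ∀ z : Circle × Circle, sE (bE T z) = ((z.1 : ℂ) ^ j) • sV (bV σ z)

variable {T σ} {P : SlopeFilling T σ → V →L[ℂ] V}

/-- a unit with a logarithm on the torus does not change the type -/
theorem HasType.of_log {j : ℤ} {sE : T.exterior → V} {sV : FillingTorus → V}
    (hE : IsFrame (fun e => P (inE T σ e)) sE univ) (hV : IsFrame (fun w => P (inV T σ w)) sV univ)
    {φ : Circle × Circle → ℂ} (hl : HasLog (fun z => φ z * ((z.1 : ℂ) ^ j)⁻¹) univ)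
    (h : ∀ z, sE (bE T z) = φ z • sV (bV σ z)) : HasType T σ P j := by
  obtain ⟨ψ, c1, e1⟩ := hl
  obtain ⟨Ψ, c2, e2⟩ := exists_ext_emb (continuous_bV σ) (bV_injective σ) (continuousOn_univ.1 c1)
  refine ⟨sE, _, hE, hV.smul (φ := fun w => exp (Ψ w)) (by fun_prop) fun _ _ => exp_ne_zero _,
    fun z => ?_⟩
  have h1 : φ z * ((z.1 : ℂ) ^ j)⁻¹ = exp (ψ z) := e1 z (mem_univ _)
  have h2 : (z.1 : ℂ) ^ j ≠ 0 := zpow_ne_zero _ z.1.coe_ne_zero
  rw [h, e2, ← h1, smul_smul, mul_comm (φ z), ← mul_assoc, mul_inv_cancel₀ h2, one_mul]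

/-- **every line on a filling has a type** -/
theorem exists_type [FiniteDimensional ℂ V] (hP : IsLine P univ) : ∃ j, HasType T σ P j := by
  classical
  have lV : IsLine (fun w => P (inV T σ w)) univ :=
    hP.comp (continuous_inV T σ).continuousOn (mapsTo_univ _ _)
  have lE : IsLine (fun e => P (inE T σ e)) univ :=
    hP.comp (continuous_inE T σ).continuousOn (mapsTo_univ _ _)
  obtain ⟨sV, hV⟩ := frame_solid lV
  obtain ⟨l, cl, el⟩ := lV.coframe hV
  have cb : Continuous fun z => (bE T z : S3) := continuous_subtype_val.comp (continuous_bE T)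
  obtain ⟨s1, cs1, es1⟩ := exists_ext_emb cb (bE_injective T)
    ((continuousOn_univ.1 hV.cont).comp (continuous_bV σ))
  obtain ⟨l1, cl1, el1⟩ := exists_ext_emb cb (bE_injective T)
    ((continuousOn_univ.1 cl).comp (continuous_bV σ))
  simp only [comp_apply] at es1 el1
  have a1 : ∀ z, l1 (bE T z) (s1 (bE T z)) = 1 := fun z => by
    rw [es1, el1]
    have := el (bV σ z) (mem_univ _) (sV (bV σ z))
    rw [hV.sec _ (mem_univ _)] at this
    exact (smul_left_injective ℂ (hV.ne _ (mem_univ _)) ((one_smul ℂ _).trans this)).symm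
  let r : S3 → ℝ := fun x => infDist x T.exterior
  have cr : Continuous r := continuous_infDist_pt _
  have r0 : ∀ x ∈ T.exterior, r x = 0 := fun x hx => infDist_zero_of_mem hx
  have rp : ∀ x ∉ T.exterior, 0 < r x := fun x hx =>
    ((isClosed_exterior T).notMem_iff_infDist_pos ⟨_, (bE T (1, 1)).2⟩).1 hx
  let a : S3 → ℂ := fun x => l1 x (s1 x)
  have ca : Continuous a := cl1.clm_apply cs1
  let d : S3 → ℂ := fun x => (starRingEnd ℂ) (a x) * a x + r x * r x
  have cd : Continuous d := by fun_prop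
  have d0' : ∀ x ∈ T.tube, d x ≠ 0 := fun x hx => by
    by_cases hx' : x ∈ T.exterior
    · obtain ⟨z, rfl⟩ := mem_inter T hx' hx
      simp [d, a, a1, r0 _ hx']
    · have h1 : d x = ((normSq (a x) + r x * r x : ℝ) : ℂ) := by
        simp [d, normSq_eq_conj_mul_self]
      rw [h1, ofReal_ne_zero]
      have := normSq_nonneg (a x)
      have := rp x hx'
      positivity
  let s2 : S3 → V × ℂ := fun x => (s1 x, (r x : ℂ))
  let l2 : S3 → V × ℂ →L[ℂ] ℂ := fun x => (d x)⁻¹ •
    ((starRingEnd ℂ) (a x) • (l1 x).comp (ContinuousLinearMap.fst ℂ V ℂ) +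
      (r x : ℂ) • ContinuousLinearMap.snd ℂ V ℂ)
  have cs2 : Continuous s2 := by fun_prop
  have cl2 : ContinuousOn l2 T.tube := by
    refine (cd.continuousOn.inv₀ d0').smul (Continuous.continuousOn (Continuous.add ?_ ?_))
    · exact (continuous_conj.comp ca).smul (cl1.clm_comp continuous_const)
    · exact (continuous_ofReal.comp cr).smul continuous_const
  obtain ⟨lQ, fQ⟩ := isLine_smulRight cs2.continuousOn cl2 fun x hx => by
    simp only [l2, s2, _root_.smul_apply, _root_.add_apply,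
      ContinuousLinearMap.comp_apply, ContinuousLinearMap.coe_fst', ContinuousLinearMap.coe_snd',
      smul_eq_mul]
    exact inv_mul_cancel₀ (d0' x hx)
  let up : (V →L[ℂ] V) → V × ℂ →L[ℂ] V × ℂ := fun A =>
    (ContinuousLinearMap.inl ℂ V ℂ).comp (A.comp (ContinuousLinearMap.fst ℂ V ℂ))
  have cup : Continuous up := continuous_const.clm_comp (continuous_id.clm_comp continuous_const)
  have up_apply : ∀ A (w : V × ℂ), up A w = (A w.1, 0) := fun _ _ => rfl
  let R : S3 → V × ℂ →L[ℂ] V × ℂ := fun x =>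
    if hx : x ∈ T.exterior then up (P (inE T σ ⟨x, hx⟩)) else (l2 x).smulRight (s2 x)
  have RE : ∀ e : T.exterior, R e = up (P (inE T σ e)) := fun e => dif_pos e.2
  have RT : ∀ x ∈ T.tube, R x = (l2 x).smulRight (s2 x) := fun x hx => by
    by_cases hx' : x ∈ T.exterior
    · obtain ⟨z, rfl⟩ := mem_inter T hx' hx
      rw [RE, inE_bE]
      refine ContinuousLinearMap.ext fun w => ?_
      rw [up_apply, el _ (mem_univ _)]
      have a2 := a1 z
      rw [es1, el1] at a2
      simp [l2, s2, d, a, a2, r0 _ hx', es1, el1]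
    · exact dif_neg hx'
  have lRE : IsLine R T.exterior := by
    refine ⟨?_, fun x hx v => ?_, fun x hx => ?_⟩
    · rw [continuousOn_iff_continuous_domRestrict]
      exact (cup.comp (continuousOn_univ.1 lE.cont)).congr fun e => (RE e).symm
    · rw [RE ⟨x, hx⟩, up_apply, up_apply, lE.idem _ (mem_univ _)]
    · obtain ⟨e, h1, h2, h3⟩ := lE.rank ⟨x, hx⟩ (mem_univ _)
      rw [RE ⟨x, hx⟩]
      refine ⟨(e, 0), fun h => h1 (congrArg Prod.fst h), by rw [up_apply, h2], fun v hv => ?_⟩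
      rw [up_apply] at hv
      obtain ⟨c, hc⟩ := h3 v.1 (congrArg Prod.fst hv)
      exact ⟨c, Prod.ext hc (by simpa using (congrArg Prod.snd hv).symm)⟩
  have lRT : IsLine R T.tube := lQ.congr RT
  have lR : IsLine R univ := by
    rw [← ext_union_tube T]
    exact ⟨lRE.cont.union_of_isClosed lRT.cont (isClosed_exterior T) (isClosed_tube T),
      fun x hx => hx.elim (lRE.idem x) (lRT.idem x), fun x hx => hx.elim (lRE.rank x) (lRT.rank x)⟩
  obtain ⟨s, hs⟩ := frame_sphere (Or.inr (by simp)) lR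
  obtain ⟨φ, c1, n1, e1⟩ := lRT.ratio (fQ.congr RT fun _ _ => rfl) (hs.mono (subset_univ _))
  have hsE : ∀ e : T.exterior, (P (inE T σ e) (s e).1, (0 : ℂ)) = s e := fun e => by
    rw [← up_apply, ← RE, hs.sec _ (mem_univ _)]
  have hE : IsFrame (fun e => P (inE T σ e)) (fun e => (s e).1) univ :=
    ⟨(continuous_fst.comp ((continuousOn_univ.1 hs.cont).comp continuous_subtype_val)).continuousOn,
      fun e _ => congrArg Prod.fst (hsE e), fun e _ h0 => hs.ne e (mem_univ _) (by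
        rw [← hsE e, h0, map_zero]; rfl)⟩
  obtain ⟨j, hj⟩ := exists_deg_solid (φ := fun w => φ (tb T w))
    (c1.comp_continuous (continuous_tb T) (tb_mem T)) fun w => n1 _ (tb_mem T w)
  refine ⟨j, HasType.of_log hE hV (φ := fun z => φ (bE T z)) ?_ fun z => ?_⟩
  · exact hj.comp (g := fun z : Circle × Circle => (bd z.2, z.1)) (T := univ)
      ((continuous_bd.comp continuous_snd).prodMk continuous_fst).continuousOn (mapsTo_univ _ _)
  · have := congrArg Prod.fst (e1 _ (tb_mem T (bd z.2, z.1)))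
    rw [tb_bd] at this
    rw [this, ← es1]
    rfl

/-- type zero: a global frame -/
theorem HasType.frame (h : HasType T σ P 0) : ∃ s, IsFrame P s univ := by
  obtain ⟨sE, sV, hE, hV, h⟩ := h
  obtain ⟨s, c, eE, eV⟩ := exists_lift T σ (continuousOn_univ.1 hE.cont)
    (continuousOn_univ.1 hV.cont) fun z => by simpa using h z
  refine ⟨s, c.continuousOn, fun y _ => ?_, fun y _ => ?_⟩
  · rcases fill_cases T σ y with ⟨e, rfl⟩ | ⟨w, rfl⟩
    · rw [eE]; exact hE.sec _ (mem_univ _)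
    · rw [eV]; exact hV.sec _ (mem_univ _)
  · rcases fill_cases T σ y with ⟨e, rfl⟩ | ⟨w, rfl⟩
    · rw [eE]; exact hE.ne _ (mem_univ _)
    · rw [eV]; exact hV.ne _ (mem_univ _)

theorem HasType.of_frame {s : SlopeFilling T σ → V} (h : IsFrame P s univ) : HasType T σ P 0 :=
  ⟨_, _, h.comp (continuous_inE T σ).continuousOn (mapsTo_univ _ _),
    h.comp (continuous_inV T σ).continuousOn (mapsTo_univ _ _), fun z => by simp [inE_bE T σ]⟩

/-- a Seifert map: a nowhere zero function on the exterior which is the meridional coordinate on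
the boundary torus up to a logarithm -/
structure IsSeif (T : ThickKnot) (θ : T.exterior → ℂ) : Prop where
  cont : Continuous θ
  ne : ∀ e, θ e ≠ 0
  bdry : HasLog (fun z : Circle × Circle => θ (bE T z) * ((z.2 : ℂ))⁻¹) univ

theorem HasLog.zpow {X : Type*} [TopologicalSpace X] {φ : X → ℂ} {S : Set X} (h : HasLog φ S)
    (k : ℤ) : HasLog (fun x => φ x ^ k) S := by
  obtain ⟨ψ, h1, h2⟩ := h
  exact ⟨fun x => k * ψ x, continuousOn_const.mul h1, fun x hx => by
    simp only [h2 x hx, exp_int_mul]⟩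

theorem coe_bV_snd (z : Circle × Circle) :
    ((bV σ z).2 : ℂ) = (z.1 : ℂ) ^ (-σ.p) * (z.2 : ℂ) ^ σ.q := by
  simp [bV]

/-- the type can be changed by multiples of `p` -/
theorem HasType.add_mul {θ : T.exterior → ℂ} (hθ : IsSeif T θ) {j : ℤ} (h : HasType T σ P j)
    (k : ℤ) : HasType T σ P (j + k * σ.p) := by
  obtain ⟨sE, sV, hE, hV, h⟩ := h
  have n1 : ∀ (u : Circle) (j : ℤ), (u : ℂ) ^ j ≠ 0 := fun u j => zpow_ne_zero _ u.coe_ne_zero
  refine HasType.of_log (hE.smul (φ := fun e => θ e ^ (σ.q * k))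
      (hθ.cont.zpow₀ _ fun e => Or.inl (hθ.ne e)).continuousOn fun e _ => zpow_ne_zero _ (hθ.ne e))
    (hV.smul (φ := fun w => (w.2 : ℂ) ^ k)
      ((continuous_circle_zpow k).comp continuous_snd).continuousOn fun w _ => n1 _ _)
    (φ := fun z => (θ (bE T z) * ((z.2 : ℂ))⁻¹) ^ (σ.q * k) * (z.1 : ℂ) ^ (j + k * σ.p)) ?_
    fun z => ?_
  · exact (hθ.bdry.zpow (σ.q * k)).congr fun z _ => mul_inv_cancel_right₀ (n1 _ _) _
  · rw [h, smul_smul, smul_smul, coe_bV_snd]
    congr 1
    have h1 := z.1.coe_ne_zero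
    have h2 := z.2.coe_ne_zero
    rw [mul_zpow, mul_zpow, inv_zpow', ← zpow_mul, ← zpow_mul, zpow_add₀ h1, neg_mul, zpow_neg,
      zpow_neg, mul_comm σ.p k]
    field_simp

/-- a unit on the exterior has degree zero along the Seifert longitude -/
theorem IsSeif.deg {θ : T.exterior → ℂ} (hθ : IsSeif T θ) {α : T.exterior → ℂ} (cα : Continuous α)
    (nα : ∀ e, α e ≠ 0) :
    ∃ d : ℤ, HasLog (fun z : Circle × Circle => α (bE T z) * ((z.2 : ℂ) ^ d)⁻¹) univ := by
  classical
  have n1 : ∀ (u : Circle) (j : ℤ), (u : ℂ) ^ j ≠ 0 := fun u j => zpow_ne_zero _ u.coe_ne_zero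
  obtain ⟨c, d, hcd⟩ := exists_deg_torus (cα.comp (continuous_bE T)) fun z => nα _
  suffices hc : c = 0 from ⟨d, hcd.congr fun z _ => by simp [hc]⟩
  -- `α θ^(-d) u^(-c)` has a logarithm `ψ` on the torus
  obtain ⟨ψ, c1, e1⟩ := hcd.mul (hθ.bdry.zpow d).inv
  have hi : Injective fun z : Circle × Circle => ((bd z.2, z.1) : FillingTorus) := fun z z' h =>
    Prod.ext (congrArg Prod.snd h) (bd_injective (congrArg Prod.fst h))
  obtain ⟨Ψ, c2, e2⟩ := exists_ext_emb
    ((continuous_bd.comp continuous_snd).prodMk continuous_fst) hi (continuousOn_univ.1 c1)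
  have htb : Injective (tb T) := fun w w' h => by
    have := T.isOpenEmbedding.injective h
    simp only [Prod.mk.injEq] at this
    exact Prod.ext (Subtype.ext this.2) this.1
  obtain ⟨G, c3, e3⟩ := exists_ext_emb (continuous_tb T) htb
    (g := fun w => (w.2 : ℂ) ^ c * exp (Ψ w))
    (((continuous_circle_zpow c).comp continuous_snd).mul (by fun_prop))
  let F : S3 → ℂ := fun x => if hx : x ∈ T.exterior then α ⟨x, hx⟩ * (θ ⟨x, hx⟩ ^ d)⁻¹ else G x
  have FE : ∀ e : T.exterior, F e = α e * (θ e ^ d)⁻¹ := fun e => dif_pos e.2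
  have FT : ∀ x ∈ T.tube, F x = G x := fun x hx => by
    by_cases hx' : x ∈ T.exterior
    · obtain ⟨z, rfl⟩ := mem_inter T hx' hx
      have h1 : α (bE T z) * ((z.1 : ℂ) ^ c * (z.2 : ℂ) ^ d)⁻¹ *
          ((θ (bE T z) * ((z.2 : ℂ))⁻¹) ^ d)⁻¹ = exp (ψ z) := e1 z (mem_univ _)
      have h2 : Ψ (bd z.2, z.1) = ψ z := e2 z
      rw [FE, ← tb_bd, e3, h2, ← h1, mul_zpow, inv_zpow]
      have := n1 z.1 c
      have := n1 z.2 d
      have := zpow_ne_zero d (hθ.ne (bE T z))
      field_simp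
    · exact dif_neg hx'
  have Ftb : ∀ w, F (tb T w) = (w.2 : ℂ) ^ c * exp (Ψ w) := fun w => by rw [FT _ (tb_mem T w), e3]
  have cF : Continuous F := by
    rw [← continuousOn_univ, ← ext_union_tube T]
    refine ContinuousOn.union_of_isClosed ?_ (c3.continuousOn.congr FT) (isClosed_exterior T)
      (isClosed_tube T)
    rw [continuousOn_iff_continuous_domRestrict]
    exact (cα.mul ((hθ.cont.zpow₀ _ fun e => Or.inl (hθ.ne e)).inv₀
      fun e => zpow_ne_zero _ (hθ.ne e))).congr fun e => (FE e).symm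
  have nF : ∀ x, F x ≠ 0 := fun x => by
    rcases (ext_union_tube T ▸ mem_univ x : x ∈ T.exterior ∪ T.tube) with hx | hx
    · rw [FE ⟨x, hx⟩]
      exact mul_ne_zero (nα _) (inv_ne_zero (zpow_ne_zero _ (hθ.ne _)))
    · obtain ⟨⟨u, w⟩, ⟨-, hw⟩, rfl⟩ := hx
      have := Ftb (⟨w, hw⟩, u)
      rw [show T.τ (u, w) = tb T (⟨w, hw⟩, u) from rfl, this]
      exact mul_ne_zero (n1 _ _) (exp_ne_zero _)
  have l1 := (hasLog_sphere (by simp) cF nF).comp (g := fun u : Circle => tb T (d0, u)) (T := univ)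
    ((continuous_tb T).comp (by fun_prop)).continuousOn (mapsTo_univ _ _)
  have l2 : HasLog (fun u : Circle => exp (Ψ (d0, u))) univ :=
    ⟨fun u => Ψ (d0, u), by fun_prop, fun _ _ => rfl⟩
  exact deg_unique ((l1.mul l2.inv).congr fun u _ => by
    rw [Ftb, mul_inv_cancel_right₀ (exp_ne_zero _)])

/-- two types of one line are congruent modulo `p` -/
theorem HasType.dvd_sub {θ : T.exterior → ℂ} (hθ : IsSeif T θ) (hP : IsLine P univ) {j j' : ℤ}
    (h : HasType T σ P j) (h' : HasType T σ P j') : σ.p ∣ j - j' := by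
  obtain ⟨sE, sV, hE, hV, h⟩ := h
  obtain ⟨sE', sV', hE', hV', h'⟩ := h'
  have n1 : ∀ (u : Circle) (j : ℤ), (u : ℂ) ^ j ≠ 0 := fun u j => zpow_ne_zero _ u.coe_ne_zero
  obtain ⟨α, cα, nα, eα⟩ := (hP.comp (continuous_inE T σ).continuousOn (mapsTo_univ _ _)).ratio hE hE'
  obtain ⟨β, cβ, nβ, eβ⟩ := (hP.comp (continuous_inV T σ).continuousOn (mapsTo_univ _ _)).ratio hV hV'
  obtain ⟨d, hd⟩ := hθ.deg (continuousOn_univ.1 cα) fun e => nα e (mem_univ _)
  obtain ⟨m, hm⟩ := exists_deg_solid (continuousOn_univ.1 cβ) fun e => nβ e (mem_univ _)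
  have hm' := hm.comp (g := bV σ) (T := univ) (continuous_bV σ).continuousOn (mapsTo_univ _ _)
  have key : ∀ z : Circle × Circle, α (bE T z) * (z.1 : ℂ) ^ j = (z.1 : ℂ) ^ j' * β (bV σ z) := by
    intro z
    have h1 := h' z
    rw [eα _ (mem_univ _), eβ _ (mem_univ _), h, smul_smul, smul_smul] at h1
    exact smul_left_injective ℂ (hV.ne _ (mem_univ _)) h1
  have l : HasLog (fun z : Circle × Circle =>
      (z.1 : ℂ) ^ (j - j' + σ.p * m) * (z.2 : ℂ) ^ (d - σ.q * m)) univ := by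
    refine (hm'.mul hd.inv).congr fun z _ => ?_
    have h1 := z.1.coe_ne_zero
    have h2 := z.2.coe_ne_zero
    have h3 : β (bV σ z) = α (bE T z) * (z.1 : ℂ) ^ j * ((z.1 : ℂ) ^ j')⁻¹ := by
      rw [key, mul_comm, ← mul_assoc, inv_mul_cancel₀ (n1 _ _), one_mul]
    have h4 := nα (bE T z) (mem_univ _)
    rw [coe_bV_snd, h3, mul_zpow, ← zpow_mul, ← zpow_mul, zpow_add₀ h1, zpow_sub₀ h1, zpow_sub₀ h2,
      neg_mul, zpow_neg]
    have := n1 z.1 j'
    have := n1 z.1 (σ.p * m)
    have := n1 z.2 (σ.q * m)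
    have := n1 z.2 d
    field_simp
  exact ⟨-m, by linear_combination (deg_unique_torus l).1⟩

/-- a line is trivial iff `p` divides its type -/
theorem HasType.frame_iff {θ : T.exterior → ℂ} (hθ : IsSeif T θ) (hP : IsLine P univ) {j : ℤ}
    (h : HasType T σ P j) : (∃ s, IsFrame P s univ) ↔ σ.p ∣ j := by
  constructor
  · rintro ⟨s, hs⟩
    simpa using h.dvd_sub hθ hP (HasType.of_frame hs)
  · rintro ⟨k, rfl⟩
    have := h.add_mul hθ (-k)
    rw [show σ.p * k + -k * σ.p = 0 by ring] at this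
    exact this.frame

theorem HasType.of_dvd_sub {θ : T.exterior → ℂ} (hθ : IsSeif T θ) {j j' : ℤ}
    (h : HasType T σ P j) (hd : σ.p ∣ j' - j) : HasType T σ P j' := by
  obtain ⟨k, hk⟩ := hd
  have := h.add_mul hθ k
  rwa [show j + k * σ.p = j' by linear_combination -hk] at this

end

end Crest.Agent.X212.Pic56
end

-- ▼ part X212/Pic56/Smo

/-!
# X212 / Pic56 / Smo (helper56): `Pic (Fill t σ) = ℤ / p` and matching across a homeomorphism

* `FType t σ p j` : the type of a line `p` (matrix projector field) on the smooth filling;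
* `FType.of_frames` (how to compute it), `exists_ftype`, `exists_line` (all types occur),
  `FType.kron`, `FType.conj`, `FType.dvd_sub`, `FType.of_dvd_sub`, `FType.of_hom`;
* `FType.liso` : congruent types give a smooth partial isometry;
* `exists_unit` : a homeomorphism `f` multiplies types by a unit, `natAbs_eq` : `|p| = |p'|`;
* `FType.pull_small`, `liso_across` : for `p ∣ 2` the types are preserved by `f`.
-/

set_option autoImplicit false
set_option linter.unusedSectionVars false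

open Set Function Matrix Metric Topology
open scoped ContDiff Manifold Kronecker
open Crest.GeometryTopology.DehnSurgery Crest.Agent.X212.Pj41 Crest.Agent.X212.Ext52
  Crest.Agent.X212.Glue52

namespace Crest.Agent.X212.Pic56

noncomputable section

variable {κ l : Type*} [Fintype κ] [Fintype l] [DecidableEq κ] [DecidableEq l]

/-! ### matrix lines on `SlopeFilling` -/

section top

variable {T : ThickKnot} {σ : FillingData}

/-- a continuous line -/
structure CLine {X : Type*} [TopologicalSpace X] (p : X → Matrix κ κ ℂ) : Prop where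
  cont : Continuous p
  rk : ∀ x, Rk1 (p x)

theorem CLine.isLine {X : Type*} [TopologicalSpace X] {p : X → Matrix κ κ ℂ} (h : CLine p) :
    IsLine (fun x => clm (p x)) univ := isLine_clm h.cont.continuousOn fun x _ => h.rk x

theorem CLine.comp {X Y : Type*} [TopologicalSpace X] [TopologicalSpace Y] {p : X → Matrix κ κ ℂ}
    (h : CLine p) {g : Y → X} (hg : Continuous g) : CLine fun y => p (g y) :=
  ⟨h.cont.comp hg, fun _ => h.rk _⟩

theorem CLine.kron {X : Type*} [TopologicalSpace X] {p : X → Matrix κ κ ℂ} {q : X → Matrix l l ℂ}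
    (hp : CLine p) (hq : CLine q) : CLine fun x => p x ⊗ₖ q x :=
  ⟨continuous_pi fun i => continuous_pi fun j =>
    (hp.cont.matrix_elem i.1 j.1).mul (hq.cont.matrix_elem i.2 j.2), fun x => (hp.rk x).kron (hq.rk x)⟩

theorem CLine.conj {X : Type*} [TopologicalSpace X] {p : X → Matrix κ κ ℂ} (hp : CLine p) :
    CLine fun x => (p x).map star :=
  ⟨continuous_pi fun i => continuous_pi fun j => (hp.cont.matrix_elem i j).star,
    fun x => (hp.rk x).conj⟩

theorem CLine.of_msm {E H : Type*} [NormedAddCommGroup E] [NormedSpace ℝ E] [TopologicalSpace H]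
    {I : ModelWithCorners ℝ E H} {M : Type*} [TopologicalSpace M] [ChartedSpace H M]
    {p : M → Matrix κ κ ℂ} (sp : ∀ y, MSm I p y) (hp : ∀ y, Rk1 (p y)) : CLine p :=
  ⟨continuous_iff_continuousAt.2 fun y => (sp y).continuousAt, hp⟩

theorem frame_kron {X : Type*} [TopologicalSpace X] {p : X → Matrix κ κ ℂ} {q : X → Matrix l l ℂ}
    {s : X → κ → ℂ} {s' : X → l → ℂ} (h : IsFrame (fun x => clm (p x)) s univ)
    (h' : IsFrame (fun x => clm (q x)) s' univ) :
    IsFrame (fun x => clm (p x ⊗ₖ q x)) (fun x i => s x i.1 * s' x i.2) univ := by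
  have c := continuousOn_univ.1 h.cont
  have c' := continuousOn_univ.1 h'.cont
  refine ⟨Continuous.continuousOn (by fun_prop), fun x hx => ?_, fun x hx h0 => ?_⟩
  · have h1 : p x *ᵥ s x = s x := h.sec x hx
    have h2 : q x *ᵥ s' x = s' x := h'.sec x hx
    ext ⟨i, j⟩
    rw [← congrFun h1 i, ← congrFun h2 j]
    simp only [clm_apply, mulVec, dotProduct, kroneckerMap_apply, Fintype.sum_prod_type,
      Finset.sum_mul_sum]
    exact Finset.sum_congr rfl fun _ _ => Finset.sum_congr rfl fun _ _ => by ring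
  · obtain ⟨i, hi⟩ := Function.ne_iff.1 (h.ne x hx)
    obtain ⟨j, hj⟩ := Function.ne_iff.1 (h'.ne x hx)
    exact mul_ne_zero hi hj (congrFun h0 (i, j))

theorem frame_conj {X : Type*} [TopologicalSpace X] {p : X → Matrix κ κ ℂ} {s : X → κ → ℂ}
    (h : IsFrame (fun x => clm (p x)) s univ) :
    IsFrame (fun x => clm ((p x).map star)) (fun x => star (s x)) univ := by
  refine ⟨h.cont.star, fun x hx => ?_, fun x hx h0 => h.ne x hx (star_eq_zero.1 h0)⟩
  have h1 : p x *ᵥ s x = s x := h.sec x hx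
  ext i
  conv_rhs => rw [← h1]
  simp [mulVec, dotProduct]

theorem frame_hom {X : Type*} [TopologicalSpace X] {p : X → Matrix κ κ ℂ} {q : X → Matrix l l ℂ}
    (hp : ∀ x, Rk1 (p x)) (hq : ∀ x, Rk1 (q x)) {m : X → Matrix l κ ℂ} (cm : Continuous m)
    (hm : ∀ x, q x * m x * p x = m x) (h0 : ∀ x, m x ≠ 0) {s : X → κ → ℂ}
    (h : IsFrame (fun x => clm (p x)) s univ) :
    IsFrame (fun x => clm (q x)) (fun x => m x *ᵥ s x) univ := by
  refine ⟨(cm.matrix_mulVec (continuousOn_univ.1 h.cont)).continuousOn, fun x _ => ?_,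
    fun x hx h1 => ?_⟩
  · rw [clm_apply, ← hm, mulVec_mulVec, ← Matrix.mul_assoc, ← Matrix.mul_assoc, (hq x).idem]
  · obtain ⟨c, c0, -, c2, -⟩ := (hp x).hom_eq (hq x) (hm x) (h0 x)
    have h2 : p x *ᵥ s x = s x := h.sec x hx
    have h3 := congrArg (fun v => (m x)ᴴ *ᵥ v) h1
    simp only [mulVec_mulVec, c2, smul_mulVec, h2, mulVec_zero] at h3
    exact smul_ne_zero (Complex.ofReal_ne_zero.2 c0.ne') (h.ne x hx) h3

theorem circle_star_zpow (u : Circle) (j : ℤ) : star ((u : ℂ) ^ j) = (u : ℂ) ^ (-j) := by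
  rw [star_zpow₀, _root_.zpow_neg, ← _root_.inv_zpow, ← Circle.coe_inv, Circle.coe_inv_eq_conj]
  rfl

/-- lines of the same type are continuously isomorphic -/
theorem HasType.hom {p : SlopeFilling T σ → Matrix κ κ ℂ} {q : SlopeFilling T σ → Matrix l l ℂ}
    (hp : ∀ y, Rk1 (p y)) {j : ℤ} (h : HasType T σ (fun y => clm (p y)) j)
    (h' : HasType T σ (fun y => clm (q y)) j) :
    ∃ m : SlopeFilling T σ → Matrix l κ ℂ, Continuous m ∧ (∀ y, q y * m y * p y = m y) ∧
      ∀ y, m y ≠ 0 := by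
  obtain ⟨sE, sV, hE, hV, h⟩ := h
  obtain ⟨sE', sV', hE', hV', h'⟩ := h'
  obtain ⟨m, c, eE, eV⟩ := exists_lift T σ
    (continuous_vmv (continuousOn_univ.1 hE.cont) (continuousOn_univ.1 hE'.cont))
    (continuous_vmv (continuousOn_univ.1 hV.cont) (continuousOn_univ.1 hV'.cont)) fun z => by
      rw [h, h', star_smul, circle_star_zpow, smul_vecMulVec, vecMulVec_smul, smul_smul,
        ← zpow_add₀ z.1.coe_ne_zero, add_neg_cancel, zpow_zero, one_smul]
  refine ⟨m, c, fun y => ?_, fun y => ?_⟩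
  · rcases fill_cases T σ y with ⟨e, rfl⟩ | ⟨w, rfl⟩
    · rw [eE]; exact sand_vmv (hp _).herm (hE.sec _ (mem_univ _)) (hE'.sec _ (mem_univ _))
    · rw [eV]; exact sand_vmv (hp _).herm (hV.sec _ (mem_univ _)) (hV'.sec _ (mem_univ _))
  · rcases fill_cases T σ y with ⟨e, rfl⟩ | ⟨w, rfl⟩
    · rw [eE]; exact vmv_ne (hE.ne _ (mem_univ _)) (hE'.ne _ (mem_univ _))
    · rw [eV]; exact vmv_ne (hV.ne _ (mem_univ _)) (hV'.ne _ (mem_univ _))

/-- the projector onto the line of `v` -/
def prj (v : κ → ℂ) : Matrix κ κ ℂ := (star v ⬝ᵥ v)⁻¹ • vecMulVec v (star v)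

omit [DecidableEq κ] in
theorem dot_ne {v : κ → ℂ} (h : v ≠ 0) : star v ⬝ᵥ v ≠ 0 := fun h0 =>
  (star_dot_pos h).1.ne' (by rw [h0]; rfl)

theorem prj_mulVec {v : κ → ℂ} (h : v ≠ 0) : prj v *ᵥ v = v := by
  rw [prj, smul_mulVec, vmv_mulVec, smul_smul, inv_mul_cancel₀ (dot_ne h), one_smul]

theorem rk1_prj {v : κ → ℂ} (h : v ≠ 0) : Rk1 (prj v) := by
  refine ⟨((len v : ℂ))⁻¹ • v, unit_dot h, ?_⟩
  rw [prj, star_smul, smul_vecMulVec, vecMulVec_smul, smul_smul, ← len_sq h]
  simp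

theorem prj_smul {v : κ → ℂ} (h : v ≠ 0) {c : ℂ} (hc : c ≠ 0) : prj (c • v) = prj v := by
  rw [prj, prj, star_smul, smul_vecMulVec, vecMulVec_smul, smul_dotProduct, dotProduct_smul,
    smul_smul, smul_smul]
  congr 1
  have := dot_ne h
  have : star c ≠ 0 := star_ne_zero.2 hc
  simp only [smul_eq_mul]
  field_simp

theorem continuous_prj {X : Type*} [TopologicalSpace X] {s : X → κ → ℂ} (h : Continuous s)
    (h0 : ∀ x, s x ≠ 0) : Continuous fun x => prj (s x) :=
  ((h.star.dotProduct h).inv₀ fun x => dot_ne (h0 x)).smul (continuous_vmv h h)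

/-- all types occur -/
theorem exists_line_top (T : ThickKnot) (σ : FillingData) (j : ℤ) :
    ∃ p : SlopeFilling T σ → Matrix (Fin 2) (Fin 2) ℂ, CLine p ∧
      HasType T σ (fun y => clm (p y)) j := by
  obtain ⟨g, cg, eg⟩ := exists_ext_emb (continuous_bV σ) (bV_injective σ)
    (g := fun z => (z.1 : ℂ) ^ (-j)) ((continuous_circle_zpow (-j)).comp continuous_fst)
  let sV : FillingTorus → Fin 2 → ℂ := fun w => ![g w, ((1 - ‖(w.1 : ℂ)‖ : ℝ) : ℂ)]
  let e0 : Fin 2 → ℂ := ![1, 0]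
  have n0 : e0 ≠ 0 := fun h => one_ne_zero (congrFun h 0)
  have n1 : ∀ (u : Circle) (j : ℤ), (u : ℂ) ^ j ≠ 0 := fun u j => zpow_ne_zero _ u.coe_ne_zero
  have cV : Continuous sV := continuous_pi fun i => by
    fin_cases i
    · exact cg
    · show Continuous fun w : FillingTorus => ((1 - ‖(w.1 : ℂ)‖ : ℝ) : ℂ)
      fun_prop
  have eb : ∀ z, sV (bV σ z) = ((z.1 : ℂ) ^ (-j)) • e0 := fun z => by
    ext i
    fin_cases i
    · simp [sV, e0, eg]
    · have : ‖((bV σ z).1 : ℂ)‖ = 1 := Circle.norm_coe _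
      simp [sV, e0, this]
  have nV : ∀ w, sV w ≠ 0 := by
    rintro ⟨z, y⟩ h
    have h1 : ‖(z : ℂ)‖ = 1 := by
      have := congrFun h 1
      simp only [sV, cons_val_one, cons_val_zero, Pi.zero_apply, Complex.ofReal_eq_zero] at this
      linarith
    obtain ⟨x, rfl⟩ : ∃ x : Circle, z = bd x := ⟨⟨z, mem_sphere_zero_iff_norm.2 h1⟩, rfl⟩
    rw [← bV_xy σ, eb] at h
    exact smul_ne_zero (n1 _ _) n0 h
  obtain ⟨p, cp, eE, eV⟩ := exists_lift T σ (gE := fun _ => prj e0) continuous_const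
    (continuous_prj cV nV) fun z => by rw [eb, prj_smul n0 (n1 _ _)]
  refine ⟨p, ⟨cp, fun y => ?_⟩, fun _ => e0, sV, ⟨continuousOn_const, fun e _ => ?_, fun _ _ => n0⟩,
    ⟨cV.continuousOn, fun w _ => ?_, fun w _ => nV w⟩, fun z => ?_⟩
  · rcases fill_cases T σ y with ⟨e, rfl⟩ | ⟨w, rfl⟩
    · rw [eE]; exact rk1_prj n0
    · rw [eV]; exact rk1_prj (nV _)
  · simp only [eE]; exact prj_mulVec n0
  · simp only [eV]; exact prj_mulVec (nV _)
  · rw [eb, smul_smul, ← zpow_add₀ z.1.coe_ne_zero, add_neg_cancel, zpow_zero, one_smul]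

end top

/-! ### the smooth filling -/

variable (t : Tube) (σ : FillingData)

/-- a point of the closed exterior in the open exterior -/
def exE (e : t.thick.exterior) : t.Ext :=
  ⟨e, fun ⟨w, hw, h⟩ => e.2 ⟨w, ⟨mem_univ _, by rw [show w.2 = 0 from hw.2]; simp⟩, h⟩⟩

theorem continuous_exE : Continuous (exE t) := continuous_subtype_val.subtype_mk _

/-- a point of the torus in the punctured tube -/
def cz (z : Circle × Circle) : Cz := ⟨(z.1, z.2), z.2.coe_ne_zero⟩

theorem exE_bE (z : Circle × Circle) : exE t (bE t.thick z) = t.τE (cz z) := rfl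

theorem tw_symm_cz (z : Circle × Circle) :
    ((tw σ).symm (cz z) : Circle × ℂ) = ((bV σ z).2, ((bV σ z).1 : ℂ)) := by
  have := mon_polar σ.q (-σ.p) (-σ.b) σ.a one_pos z.2 z.1
  rw [Complex.ofReal_one, one_mul, one_mul, mul_comm (z.2 ^ σ.q), mul_comm (z.2 ^ (-σ.b))] at this
  exact this

theorem exists_toFill : ∃ g : SlopeFilling t.thick σ → Fill t σ, Continuous g ∧
    (∀ e, g (inE _ σ e) = t.ie σ (exE t e)) ∧ ∀ w, g (inV _ σ w) = t.it σ (w.2, w.1) :=
  exists_lift _ σ ((t.two σ).isOpenEmbedding_inl.continuous.comp (continuous_exE t))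
    ((t.two σ).isOpenEmbedding_inr.continuous.comp (by fun_prop)) fun z => by
      rw [exE_bE, t.ie_τE', tw_symm_cz]

/-- the comparison map -/
def toFill : SlopeFilling t.thick σ → Fill t σ := (exists_toFill t σ).choose

theorem continuous_toFill : Continuous (toFill t σ) := (exists_toFill t σ).choose_spec.1

theorem toFill_inE (e : t.thick.exterior) : toFill t σ (inE _ σ e) = t.ie σ (exE t e) :=
  (exists_toFill t σ).choose_spec.2.1 e

theorem toFill_inV (w : FillingTorus) : toFill t σ (inV _ σ w) = t.it σ (w.2, w.1) :=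
  (exists_toFill t σ).choose_spec.2.2 w

theorem toFill_EV {e : t.thick.exterior} {w : FillingTorus}
    (h : t.ie σ (exE t e) = t.it σ (w.2, w.1)) : inE _ σ e = inV t.thick σ w := by
  obtain ⟨z, y⟩ := w
  obtain ⟨h1, h2⟩ := (t.ie_eq_it σ).1 h
  have h3 : ‖(z : ℂ)‖ = 1 := by
    refine le_antisymm (mem_closedBall_zero_iff.1 z.2) (not_lt.1 fun h4 => e.2 ?_)
    exact ⟨_, ⟨mem_univ _, by rwa [mem_ball_zero_iff, norm_mon]⟩, h2⟩
  obtain ⟨x, rfl⟩ : ∃ x : Circle, z = bd x := ⟨⟨z, mem_sphere_zero_iff_norm.2 h3⟩, rfl⟩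
  rw [← bV_xy σ, ← inE_bE]
  congr 1
  refine Subtype.ext (h2.symm.trans (congrArg t.τ ?_))
  have := mon_polar σ.q σ.b σ.p σ.a one_pos x y
  rwa [Complex.ofReal_one, one_mul, one_mul] at this

theorem toFill_bijective : Bijective (toFill t σ) := by
  constructor
  · intro a b h
    rcases fill_cases _ σ a with ⟨e, rfl⟩ | ⟨w, rfl⟩ <;>
      rcases fill_cases _ σ b with ⟨e', rfl⟩ | ⟨w', rfl⟩ <;>
      simp only [toFill_inE, toFill_inV] at h
    · exact congrArg _ (Subtype.ext (congrArg (Subtype.val : t.Ext → S3) ((t.two σ).inl_injective h)))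
    · exact toFill_EV t σ h
    · exact (toFill_EV t σ h.symm).symm
    · have := (t.two σ).inr_injective h
      simp only [Prod.mk.injEq] at this
      exact congrArg _ (Prod.ext (Subtype.ext this.2) this.1)
  · have hV : ∀ z : Circle × ℂ, ‖z.2‖ ≤ 1 → ∃ a, toFill t σ a = t.it σ z := fun z hz =>
      ⟨inV _ σ (⟨z.2, mem_closedBall_zero_iff.2 hz⟩, z.1), toFill_inV t σ _⟩
    have hE : ∀ x : t.Ext, ∃ a, toFill t σ a = t.ie σ x := fun x => by
      by_cases hx : (x : S3) ∈ t.thick.exterior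
      · exact ⟨inE _ σ ⟨x, hx⟩, toFill_inE t σ _⟩
      · obtain ⟨w, hw, e⟩ := not_not.1 hx
        have h0 : w.2 ≠ 0 := t.τ_mem_Ext.1 (by rw [show t.τ w = x from e]; exact x.2)
        have h1 : x = t.τE ⟨w, h0⟩ := Subtype.ext e.symm
        rw [h1, t.ie_τE']
        exact hV _ (by rw [tw_symm_val, norm_mon]; exact (mem_ball_zero_iff.1 hw.2).le)
    intro y
    rcases (t.two σ).surj y with ⟨x, rfl⟩ | ⟨z, rfl⟩
    · exact hE x
    · by_cases hz : ‖z.2‖ ≤ 1
      · exact hV z hz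
      · have h0 : z.2 ≠ 0 := fun h => hz (by simp [h])
        obtain ⟨a, ha⟩ := hE (t.τE (tw σ ⟨z, h0⟩))
        exact ⟨a, ha.trans (t.ie_τE σ ⟨z, h0⟩)⟩

instance (T : ThickKnot) : CompactSpace (SlopeFilling T σ) := by
  have : CompactSpace T.exterior := isCompact_iff_compactSpace.1 (isClosed_exterior T).isCompact
  exact inferInstanceAs (CompactSpace (Quot _))

/-- the topological filling is the smooth one -/
def fillHomeo : SlopeFilling t.thick σ ≃ₜ Fill t σ :=
  Continuous.homeoOfEquivCompactToT2 (f := Equiv.ofBijective _ (toFill_bijective t σ))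
    (continuous_toFill t σ)

theorem toFill_symm (y : Fill t σ) : toFill t σ ((fillHomeo t σ).symm y) = y :=
  (fillHomeo t σ).apply_symm_apply y

theorem isSeif (k : KD) : IsSeif k.thick fun e => (k.θ (exE k.toTube e) : ℂ) := by
  refine ⟨(continuous_subtype_val (p := fun z : ℂ => z ∈ Submonoid.unitSphere ℂ)).comp
    (k.smθ.continuous.comp (continuous_exE _)), fun e => Circle.coe_ne_zero _,
    (HasLog.const one_ne_zero _).congr fun z _ => ?_⟩
  have h : dir (z.2 : ℂ) = z.2 := by simpa using dir_mul one_pos z.2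
  rw [exE_bE, k.θτ]
  show ((dir (z.2 : ℂ) : Circle) : ℂ) * _ = 1
  rw [h, mul_inv_cancel₀ z.2.coe_ne_zero]

/-- the type of a line on the smooth filling -/
def FType (p : Fill t σ → Matrix κ κ ℂ) (j : ℤ) : Prop :=
  HasType t.thick σ (fun y => clm (p (toFill t σ y))) j

variable {t σ}

theorem exists_ftype {p : Fill t σ → Matrix κ κ ℂ} (hp : CLine p) : ∃ j, FType t σ p j :=
  exists_type (hp.comp (continuous_toFill t σ)).isLine

variable (t σ) in
theorem exists_line (j : ℤ) :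
    ∃ p : Fill t σ → Matrix (Fin 2) (Fin 2) ℂ, CLine p ∧ FType t σ p j := by
  obtain ⟨p, h1, h2⟩ := exists_line_top t.thick σ j
  refine ⟨fun y => p ((fillHomeo t σ).symm y), h1.comp (fillHomeo t σ).symm.continuous, ?_⟩
  have : ∀ y, (fillHomeo t σ).symm (toFill t σ y) = y := (fillHomeo t σ).symm_apply_apply
  simpa only [FType, this] using h2

namespace FType

variable {p : Fill t σ → Matrix κ κ ℂ} {q : Fill t σ → Matrix l l ℂ} {j j' : ℤ}

theorem kron (h : FType t σ p j) (h' : FType t σ q j') :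
    FType t σ (fun y => p y ⊗ₖ q y) (j + j') := by
  obtain ⟨sE, sV, hE, hV, h⟩ := h
  obtain ⟨sE', sV', hE', hV', h'⟩ := h'
  refine ⟨_, _, frame_kron hE hE', frame_kron hV hV', fun z => ?_⟩
  ext i
  simp only [h, h', Pi.smul_apply, smul_eq_mul, zpow_add₀ z.1.coe_ne_zero]
  ring

theorem conj (h : FType t σ p j) : FType t σ (fun y => (p y).map star) (-j) := by
  obtain ⟨sE, sV, hE, hV, h⟩ := h
  exact ⟨_, _, frame_conj hE, frame_conj hV, fun z => by rw [h, star_smul, circle_star_zpow]⟩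

/-- the type is an isomorphism invariant -/
theorem of_hom (hp : ∀ y, Rk1 (p y)) (hq : ∀ y, Rk1 (q y)) {m : Fill t σ → Matrix l κ ℂ}
    (cm : Continuous m) (hm : ∀ y, q y * m y * p y = m y) (h0 : ∀ y, m y ≠ 0)
    (h : FType t σ p j) : FType t σ q j := by
  obtain ⟨sE, sV, hE, hV, h⟩ := h
  refine ⟨_, _, frame_hom (fun _ => hp _) (fun _ => hq _)
      (cm.comp ((continuous_toFill t σ).comp (continuous_inE _ σ))) (fun _ => hm _) (fun _ => h0 _) hE,
    frame_hom (fun _ => hp _) (fun _ => hq _)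
      (cm.comp ((continuous_toFill t σ).comp (continuous_inV _ σ))) (fun _ => hm _) (fun _ => h0 _) hV,
    fun z => ?_⟩
  simp only [Function.comp_apply, h, inE_bE, mulVec_smul]

theorem hom (hp : ∀ y, Rk1 (p y)) (h : FType t σ p j) (h' : FType t σ q j) :
    ∃ m : Fill t σ → Matrix l κ ℂ, Continuous m ∧ (∀ y, q y * m y * p y = m y) ∧ ∀ y, m y ≠ 0 := by
  obtain ⟨m, h1, h2, h3⟩ := HasType.hom (fun _ => hp _) h h'
  refine ⟨fun y => m ((fillHomeo t σ).symm y), h1.comp (fillHomeo t σ).symm.continuous, fun y => ?_,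
    fun y => h3 _⟩
  simpa only [toFill_symm] using h2 ((fillHomeo t σ).symm y)

theorem frame (h : FType t σ p 0) : ∃ s, IsFrame (fun y => clm (p y)) s univ := by
  obtain ⟨s, hs⟩ := HasType.frame h
  exact ⟨_, (hs.comp (fillHomeo t σ).symm.continuous.continuousOn (mapsTo_univ _ _)).congr
    (fun y _ => by rw [toFill_symm]) fun _ _ => rfl⟩

theorem of_frame {s : Fill t σ → κ → ℂ} (h : IsFrame (fun y => clm (p y)) s univ) : FType t σ p 0 :=
  HasType.of_frame (h.comp (continuous_toFill t σ).continuousOn (mapsTo_univ _ _))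

end FType

section KD

variable {k : KD} {p : Fill k.toTube σ → Matrix κ κ ℂ} {q : Fill k.toTube σ → Matrix l l ℂ}
  {j j' : ℤ}

theorem FType.dvd_sub (hp : CLine p) (h : FType k.toTube σ p j) (h' : FType k.toTube σ p j') :
    σ.p ∣ j - j' :=
  HasType.dvd_sub (isSeif k) (hp.comp (continuous_toFill _ σ)).isLine h h'

theorem FType.of_dvd_sub (h : FType k.toTube σ p j) (hd : σ.p ∣ j' - j) : FType k.toTube σ p j' :=
  HasType.of_dvd_sub (isSeif k) h hd

/-- **computing the type**: frames on the two open pieces whose ratio on the unit torus is the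
character `u ^ c v ^ d` times a unit with a logarithm -/
theorem FType.of_frames {sE : k.Ext → κ → ℂ} {sV : Circle × ℂ → κ → ℂ}
    (hE : IsFrame (fun x => clm (p (k.ie σ x))) sE univ)
    (hV : IsFrame (fun z => clm (p (k.it σ z))) sV univ) {c d : ℤ} {φ : Circle × Circle → ℂ}
    (hl : HasLog (fun z => φ z * ((z.1 : ℂ) ^ c * (z.2 : ℂ) ^ d)⁻¹) univ)
    (h : ∀ z, sE (k.τE (cz z)) = φ z • sV ((tw σ).symm (cz z))) : FType k.toTube σ p c := by
  have hθ := isSeif k
  have hE' : IsFrame (fun e => clm (p (toFill _ σ (inE _ σ e)))) (fun e => sE (exE _ e)) univ :=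
    (hE.comp (continuous_exE _).continuousOn (mapsTo_univ _ _)).congr
      (fun e _ => by rw [toFill_inE]) fun _ _ => rfl
  have hV' : IsFrame (fun w => clm (p (toFill _ σ (inV _ σ w))))
      (fun w : FillingTorus => sV (w.2, w.1)) univ :=
    (hV.comp (g := fun w : FillingTorus => (w.2, (w.1 : ℂ))) (by fun_prop) (mapsTo_univ _ _)).congr
      (fun e _ => by rw [toFill_inV]) fun _ _ => rfl
  refine HasType.of_log (hE'.smul (φ := fun e => (k.θ (exE _ e) : ℂ) ^ (-d))
      (hθ.cont.zpow₀ _ fun e => Or.inl (hθ.ne e)).continuousOn fun e _ => zpow_ne_zero _ (hθ.ne e))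
    hV' (φ := fun z => (k.θ (exE _ (bE _ z)) : ℂ) ^ (-d) * φ z) ?_ fun z => ?_
  · refine (hl.mul (hθ.bdry.zpow d).inv).congr fun z _ => ?_
    have h1 := zpow_ne_zero c z.1.coe_ne_zero
    have h2 := zpow_ne_zero d z.2.coe_ne_zero
    have h3 := zpow_ne_zero d (hθ.ne (bE _ z))
    rw [_root_.mul_zpow, _root_.inv_zpow, _root_.zpow_neg]
    field_simp
  · rw [exE_bE, h, tw_symm_cz, smul_smul]

/-- **congruent types give a smooth isometric isomorphism** -/
theorem FType.liso (sp : ∀ y, MSm (𝓡 3) p y) (sq : ∀ y, MSm (𝓡 3) q y) (hp : ∀ y, Rk1 (p y))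
    (hq : ∀ y, Rk1 (q y)) (h : FType k.toTube σ p j) (h' : FType k.toTube σ q j')
    (hd : σ.p ∣ j' - j) : ∃ u, LIso (𝓡 3) p q u := by
  obtain ⟨m, h1, h2, h3⟩ := (h.of_dvd_sub hd).hom hp h'
  exact exists_liso sp sq hp hq h1 h2 h3

theorem FType.frame_iff (hp : CLine p) (h : FType k.toTube σ p j) :
    (∃ s, IsFrame (fun y => clm (p y)) s univ) ↔ σ.p ∣ j :=
  ⟨fun ⟨_, hs⟩ => by simpa using h.dvd_sub hp (FType.of_frame hs),
    fun hd => (h.of_dvd_sub (j' := 0) (by simpa using hd)).frame⟩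

variable {k' : KD} {σ' : FillingData} {f : Fill k.toTube σ → Fill k'.toTube σ'}

/-- a continuous map multiplies types by a fixed integer -/
theorem exists_mult (hf : Continuous f) : ∃ a : ℤ, ∀ (κ : Type) [Fintype κ] [DecidableEq κ]
    (p : Fill k'.toTube σ' → Matrix κ κ ℂ) (j : ℤ), CLine p → FType k'.toTube σ' p j →
      FType k.toTube σ (fun y => p (f y)) (a * j) := by
  obtain ⟨L, cL, tL⟩ := exists_line k'.toTube σ' 1
  obtain ⟨a, ha⟩ := exists_ftype (cL.comp hf)
  refine ⟨a, fun κ _ _ p j cp tp => ?_⟩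
  -- a model line of type `j` whose pull-back has type `a * j`
  have key : ∀ j : ℤ, ∃ (κ : Type) (_ : Fintype κ) (_ : DecidableEq κ)
      (q : Fill k'.toTube σ' → Matrix κ κ ℂ), CLine q ∧ FType k'.toTube σ' q j ∧
        FType k.toTube σ (fun y => q (f y)) (a * j) := by
    intro j
    induction j using Int.induction_on with
    | zero => exact ⟨_, _, _, _, cL.kron cL.conj, by simpa using tL.kron tL.conj,
        by simpa using ha.kron ha.conj⟩
    | succ i ih =>
      obtain ⟨κ, _, _, q, h1, h2, h3⟩ := ih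
      exact ⟨_, _, _, _, h1.kron cL, h2.kron tL, by simpa [mul_add] using h3.kron ha⟩
    | pred i ih =>
      obtain ⟨κ, _, _, q, h1, h2, h3⟩ := ih
      exact ⟨_, _, _, _, h1.kron cL.conj, h2.kron tL.conj,
        by simpa [mul_sub, sub_eq_add_neg, mul_add] using h3.kron ha.conj⟩
  obtain ⟨κ', _, _, q, h1, h2, h3⟩ := key j
  obtain ⟨m, m1, m2, m3⟩ := h2.hom h1.rk tp
  exact h3.of_hom (fun _ => h1.rk _) (fun _ => cp.rk _) (m1.comp hf) (fun _ => m2 _) fun _ => m3 _

/-- **a homeomorphism multiplies types by a unit, and `|p| = |p'|`** -/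
theorem exists_unit (f : Fill k.toTube σ ≃ₜ Fill k'.toTube σ') : ∃ a b : ℤ, σ.p ∣ a * b - 1 ∧
    σ.p.natAbs = σ'.p.natAbs ∧ ∀ (κ : Type) [Fintype κ] [DecidableEq κ]
    (p : Fill k'.toTube σ' → Matrix κ κ ℂ) (j : ℤ), CLine p → FType k'.toTube σ' p j →
      FType k.toTube σ (fun y => p (f y)) (a * j) := by
  obtain ⟨a, ha⟩ := exists_mult f.continuous
  obtain ⟨b, hb⟩ := exists_mult f.symm.continuous
  have h1 : ∀ j, σ.p ∣ a * (b * j) - j := fun j => by
    obtain ⟨L, cL, tL⟩ := exists_line k.toTube σ j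
    have := ha _ _ _ (cL.comp f.symm.continuous) (hb _ L j cL tL)
    simp only [Homeomorph.symm_apply_apply] at this
    exact this.dvd_sub cL tL
  have h2 : ∀ j, σ'.p ∣ b * (a * j) - j := fun j => by
    obtain ⟨L, cL, tL⟩ := exists_line k'.toTube σ' j
    have := hb _ _ _ (cL.comp f.continuous) (ha _ L j cL tL)
    simp only [Homeomorph.apply_symm_apply] at this
    exact this.dvd_sub cL tL
  have h3 : σ.p ∣ a * σ'.p := by
    obtain ⟨L, cL, tL⟩ := exists_line k'.toTube σ' 0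
    simpa using (ha _ L _ cL (tL.of_dvd_sub (j' := σ'.p) (by simp))).dvd_sub
      (cL.comp f.continuous) (ha _ L _ cL tL)
  have h4 : σ'.p ∣ b * σ.p := by
    obtain ⟨L, cL, tL⟩ := exists_line k.toTube σ 0
    simpa using (hb _ L _ cL (tL.of_dvd_sub (j' := σ.p) (by simp))).dvd_sub
      (cL.comp f.symm.continuous) (hb _ L _ cL tL)
  refine ⟨a, b, by simpa using h1 1, Nat.dvd_antisymm ?_ ?_, ha⟩
  · rw [Int.natAbs_dvd_natAbs]
    have := (h3.mul_left b).sub (h1 σ'.p)
    rwa [show b * (a * σ'.p) - (a * (b * σ'.p) - σ'.p) = σ'.p by ring] at this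
  · rw [Int.natAbs_dvd_natAbs]
    have := (h4.mul_left a).sub (h2 σ.p)
    rwa [show a * (b * σ.p) - (b * (a * σ.p) - σ.p) = σ.p by ring] at this

theorem natAbs_eq (f : Fill k.toTube σ ≃ₜ Fill k'.toTube σ') : σ.p.natAbs = σ'.p.natAbs :=
  let ⟨_, _, _, h, _⟩ := exists_unit f; h

/-- for `p ∣ 2` a homeomorphism preserves types -/
theorem FType.pull_small (f : Fill k.toTube σ ≃ₜ Fill k'.toTube σ') (h2 : σ.p ∣ 2) {κ : Type}
    [Fintype κ] [DecidableEq κ] {p : Fill k'.toTube σ' → Matrix κ κ ℂ} (cp : CLine p)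
    (h : FType k'.toTube σ' p j) : FType k.toTube σ (fun y => p (f y)) j := by
  obtain ⟨a, b, h3, -, ha⟩ := exists_unit f
  refine (ha κ p j cp h).of_dvd_sub ?_
  have h4 : σ.p ∣ a - 1 := by
    rcases Int.even_or_odd' a with ⟨c, rfl | rfl⟩
    · have : σ.p ∣ 1 := by
        have := (h2.mul_right (c * b)).sub h3
        rwa [show 2 * (c * b) - (2 * c * b - 1) = 1 by ring] at this
      exact this.trans (one_dvd _)
    · simpa using h2.mul_right c
  have := (h4.mul_right j).neg_right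
  rwa [show -((a - 1) * j) = j - a * j by ring] at this

/-- **matching of two smooth lines across a diffeomorphism**, `p ∣ 2` -/
theorem liso_across (f : Fill k.toTube σ ≃ₘ^∞⟮𝓡 3, 𝓡 3⟯ Fill k'.toTube σ') (h2 : σ.p ∣ 2) {l : Type}
    [Fintype l] [DecidableEq l] {q : Fill k'.toTube σ' → Matrix l l ℂ}
    (sp : ∀ y, MSm (𝓡 3) p y) (sq : ∀ y, MSm (𝓡 3) q y) (hp : ∀ y, Rk1 (p y)) (hq : ∀ y, Rk1 (q y))
    (h : FType k.toTube σ p j) (h' : FType k'.toTube σ' q j') (hd : σ.p ∣ j' - j) :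
    ∃ u, LIso (𝓡 3) p (fun y => q (f y)) u :=
  h.liso sp (fun y => (sq _).comp (f.contMDiff y)) hp (fun _ => hq _)
    (FType.pull_small f.toHomeomorph h2 (CLine.of_msm sq hq) h') hd

end KD

end

end Crest.Agent.X212.Pic56
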